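import Vale.Agent.P088.R2.H673.INF.Rho3

/-!
# P088, stage 3, zone INF: row RHO
-/

open Set Filter
open scoped ContDiff Topology Matrix

noncomputable section

namespace Vale.Agent.P088.R2.H673.INF

open Vale.Agent.P088.LR Vale.Agent.P088.HY Vale.Agent.P088.R2.H464.Cu
open Vale.Agent.P088.R2.H644.Sy Vale.Agent.P088.R2.H644.Ch Vale.Agent.P088.R2.H644.Ep
open Vale.Agent.P088.R2.H31.EP Vale.Agent.P088.R2.H475 Vale.Agent.P088.R2.H768.FarJ
open Vale.Agent.P088.R2.H961.GW Vale.Agent.P088.R2.H657.W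
open Vale.Agent.P088.R2.H269.INF
open Vale.Agent.P088.R2.H168.INF (W0 RowRho)

variable {n : ℕ}

/-- Exponentials beat powers. -/
theorem ev_exp {σ : ℝ} (hσ : 0 < σ) (C : ℝ) :
    ∀ᶠ t in atTop, C * Real.exp (-(4 / 1000) * (t / σ)) ≤ (t⁻¹ : ℝ) ^ 8 := by
  have hc : 0 < 4 / 1000 / σ := by positivity
  set c : ℝ := 4 / 1000 / σ with hcd
  have h1 : Tendsto (fun t : ℝ => (c * t) ^ 8 * Real.exp (-(c * t))) atTop (𝓝 0) :=
    (Real.tendsto_pow_mul_exp_neg_atTop_nhds_zero 8).comp (tendsto_id.const_mul_atTop hc)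
  have h2 : 0 < c ^ 8 / (|C| + 1) := by positivity
  filter_upwards [h1.eventually (gt_mem_nhds h2), eventually_gt_atTop 0] with t h3 h4
  have e : -(4 / 1000) * (t / σ) = -(c * t) := by
    rw [hcd]
    field_simp
  rw [e, inv_pow, ← one_div, le_div_iff₀ (by positivity)]
  have h5 : 0 < Real.exp (-(c * t)) := Real.exp_pos _
  rw [lt_div_iff₀ (by positivity), mul_pow] at h3
  have h6 : C * Real.exp (-(c * t)) * t ^ 8 ≤ (|C| + 1) * (Real.exp (-(c * t)) * t ^ 8) := by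
    have : 0 ≤ Real.exp (-(c * t)) * t ^ 8 := by positivity
    have h7 : C ≤ |C| + 1 := (le_abs_self C).trans (by linarith)
    nlinarith
  refine h6.trans ?_
  have h8 : 0 < c ^ 8 := by positivity
  have h9 : c ^ 8 * ((|C| + 1) * (Real.exp (-(c * t)) * t ^ 8)) ≤ c ^ 8 * 1 := by
    rw [mul_one]
    refine le_trans (le_of_eq ?_) h3.le
    ring
  exact le_of_mul_le_mul_left h9 h8

/-- The metric condition from helper509's. -/
theorem met_of {d : Pk n} (h : ∀ z, |2 * rq (gi d.s₁) z - qq z| ≤ 1 / 100000 * qq z) (z : VV n) :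
    r2 (gi d.s₁) z ≤ (1 + 1 / 100000) * HY.sq (z.1 - z.2) := by
  have h1 := (abs_le.1 (h z)).2
  have e : qq z = HY.sq (z.1 - z.2) := rfl
  rw [e] at h1
  unfold r2
  linarith

/-- The conditions hold. -/
theorem ev_Dp (hn : 1 ≤ n) (f : Cst → ℝ) : EvC fun q => ∀ d : Pk n, PkOk q d →
    Dp n (f q.b_R) q d := by
  have h1 := H404.INF.evInf
  have h2 := EvC.pos
  have h3 := EvC.at_es (fun _ t => t ≤ 1 / 100000) fun _ => sml_le (by norm_num)
  have h4 := EvC.at_c' (fun _ t => t ≤ 1) fun _ => sml_le one_pos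
  have h5 := EvC.at_M₀ (fun q t => 13 / q.c' ≤ t) fun q => eventually_ge_atTop _
  have h6 := EvC.at_R (fun q t => f q ≤ t) fun q => eventually_ge_atTop _
  have h7 := EvC.ε_le (fun _ => (1 : ℝ)) fun _ => rfl
  have h8 := EvC.ε_le (fun _ => 1 / (2 * (n : ℝ))) fun _ => rfl
  have h9 := EvC.ε_le (fun _ => 1 / (2 * (n * (|cG n 12| + 1)))) fun _ => rfl
  have h10 := EvC.metric n (fun _ => 1 / 100000) fun _ => rfl
  refine ((((h1.and h2).and (h3.and h4)).and ((h5.and h6).and (h7.and h8))).and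
    (h9.and h10)).mono ?_
  rintro q ⟨⟨⟨⟨a1, a2⟩, a3, a4⟩, ⟨a5, a6⟩, a7, a8⟩, a9, a10⟩ d h
  obtain ⟨⟨b1, b2, b3, b4, b5, b6, b7, b8, b9, b10⟩, ⟨c1, c2, c3, c4, c5, c6, c7⟩, e1, e2, e3, e4,
    e5, e6⟩ := a2
  have hn0 : (0 : ℝ) < n := by exact_mod_cast hn
  have i7 := a7 one_pos
  have i8 := a8 (by positivity)
  have i9 := a9 (by positivity)
  rw [le_div_iff₀ (by positivity)] at i8 i9
  have i10 := (a10 (by norm_num) d h).2.2.2.2
  refine ⟨hn, a1.σ0, a1.σ1, b2, h, e1, c5, c4.le, a3, c3.le, a4, ?_, a1.R1, a6, e3.le, i7, ?_, ?_,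
    H404.INF.l₀_nonneg a1 h, met_of i10⟩
  · have j1 : 13 / q.c' ≤ q.M₀ := a5
    rw [div_le_iff₀ c3] at j1
    have j2 : 13 / 2 ≤ q.r₁ := by
      unfold Cst.r₁
      linarith
    have j3 : 36 / 100 < Real.exp (-1) := by
      have := Real.exp_neg_one_gt_d9
      linarith
    nlinarith
  · nlinarith
  · have j1 : cG n 12 ≤ |cG n 12| + 1 := (le_abs_self _).trans (by linarith)
    have j2 : (n : ℝ) * (cG n 12 * q.ε) ≤ n * ((|cG n 12| + 1) * q.ε) :=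
      mul_le_mul_of_nonneg_left (mul_le_mul_of_nonneg_right j1 e3.le) hn0.le
    nlinarith

/-- In dimension `0` there is nothing to prove. -/
theorem iter_zero_dim (f : VV 0 → ℝ) (z : VV 0) {j : ℕ} (hj : 1 ≤ j) :
    iteratedFDeriv ℝ j f z = 0 := by
  ext v
  have h1 : v ⟨0, by omega⟩ = 0 := Subsingleton.elim _ _
  exact (iteratedFDeriv ℝ j f z).map_coord_zero ⟨0, by omega⟩ h1

/-- **Row RHO.** -/
theorem rowRho (n : ℕ) : RowRho n := by
  rcases Nat.eq_zero_or_pos n with rfl | hn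
  · refine EvC.of fun q d _ z _ _ _ j hj _ => ?_
    rw [iter_zero_dim _ z hj, norm_zero]
    exact Even.pow_nonneg (by decide) _
  have hC : ∀ q₁ : Cst, ∃ p : ℝ × ℝ, 0 < q₁.σ → q₁.σ ≤ 1 / 5000 → 0 < q₁.e₁ →
      ∀ R (d : Pk n), Dp n p.2 (wR' q₁ R) d → ∀ z ∈ UD (wR' q₁ R) d, ∀ j, 1 ≤ j → j ≤ 4 →
      ‖iteratedFDeriv ℝ j (fun z => W0 (wR' q₁ R) d z - q₁.M₀ * (d.l z.1 + d.l z.2)) z‖ ≤
        p.1 * Real.exp (-(4 / 1000) * (R / q₁.σ)) := fun q₁ => by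
    by_cases h : 0 < q₁.σ ∧ q₁.σ ≤ 1 / 5000 ∧ 0 < q₁.e₁
    · obtain ⟨C, R₀, -, hC⟩ := core n q₁ hn h.1 h.2.1 h.2.2
      exact ⟨⟨C, R₀⟩, fun _ _ _ => hC⟩
    · exact ⟨0, fun h1 h2 h3 => absurd ⟨h1, h2, h3⟩ h⟩
  choose p hp using hC
  have h1 := ev_Dp hn fun q => (p q).2
  have h2 : EvC fun q => 0 < q.b_R.σ → (p q.b_R).1 * Real.exp (-(4 / 1000) * (q.R / q.b_R.σ)) ≤
      q.R⁻¹ ^ 8 := by
    refine EvC.at_R (fun q t => 0 < q.σ → (p q).1 * Real.exp (-(4 / 1000) * (t / q.σ)) ≤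
      t⁻¹ ^ 8) fun q => ?_
    by_cases h : 0 < q.σ
    · exact (ev_exp h _).mono fun _ h1 _ => h1
    · exact Eventually.of_forall fun _ h1 => absurd h1 h
  refine (h1.and h2).mono ?_
  rintro q ⟨a1, a2⟩ d h z hx hy hd j hj1 hj4
  have hD : Dp n (p q.b_R).2 q d := a1 d h
  have hR := hD.R0
  have hs : 0 < q.R / q.σ := div_pos hR hD.σ0
  have hz : z ∈ UD q d := ⟨by linarith, by linarith, by linarith⟩
  exact (hp q.b_R hD.σ0 hD.σ1 hD.e0 q.R d hD z hz j hj1 hj4).trans (a2 hD.σ0)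

end Vale.Agent.P088.R2.H673.INF
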