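import Vale.Agent.P088.R2.H673.INF.O3

/-!
# P088, stage 3, leaf iH, row O3: the facts of one slot
-/

open MeasureTheory Set Filter
open scoped ContDiff Topology Matrix

noncomputable section

namespace Vale.Agent.P088.R2.H673.O3

open Vale.Agent.P088.R2.H961.GW Vale.Agent.P088.R2.H960.W Vale.Agent.P088.R2.H644
open Vale.Agent.P088.R2.H551.E Vale.Agent.P088.LR Vale.Agent.P088.HY Vale.Agent.P088.R2.H475
open Vale.Agent.P088.R2.H168.INF Vale.Agent.P088.R2.H269.INF Vale.Agent.P088.R2.H31.EP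
open Vale.Agent.P088.R2.H404.INF (InfC evInf lvG l₀_eq gl_le)
open Vale.Agent.P088.R2.H380.INF

variable {n : ℕ} {q : Cst} {d : Pk n} {C₁ : ℝ} {CL : ℝ → ℝ}

/-- The numbers. -/
theorem num_w {u M t D e g F L : ℝ} (u0 : 0 < u) (M1 : 1 ≤ M) (t0 : M ≤ t)
    (t1 : t ≤ 101 / 100 * M) (D1 : D ≤ 1 / 1000 * u) (hF : 0 ≤ F)
    (hL : M * (2 / 100 * u) - D ≤ L) (hg : |g| ≤ 1 / 10 ^ 6 * u ^ 2)
    (he : e = 1 / 10 ^ 6 * (u * t) ^ 2) :
    1 / 100 * u * t * F / 4 + (1 / 100 * u * t) ^ 2 / 4 ≤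
      1 / 100 * u * t * F / 2 + 2 / 3 * (1 / 100 * u * t * L + g) - 3 * e := by
  have ht : 1 ≤ t := M1.trans t0
  have h1 : 0 ≤ 1 / 100 * u * t := by positivity
  have h2 : 0 ≤ 1 / 100 * u * t * F := mul_nonneg h1 hF
  have h3 : 1 / 100 * u * t * (M * (2 / 100 * u) - D) ≤ 1 / 100 * u * t * L :=
    mul_le_mul_of_nonneg_left hL h1
  have h4 : 1 / 100 * u * t * D ≤ 1 / 100 * u * t * (1 / 1000 * u) :=
    mul_le_mul_of_nonneg_left D1 h1
  have h5 := (abs_le.1 hg).1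
  have h6 : u ^ 2 * 1 ≤ u ^ 2 * (t * M) :=
    mul_le_mul_of_nonneg_left (one_le_mul_of_one_le_of_one_le ht M1) (sq_nonneg u)
  have h7 : u ^ 2 * (t * t) ≤ u ^ 2 * (t * (101 / 100 * M)) :=
    mul_le_mul_of_nonneg_left (mul_le_mul_of_nonneg_left t1 (by linarith)) (sq_nonneg u)
  have h8 : 1 / 100 * u * t * (M * (2 / 100 * u) - D) =
      2 / 10000 * (u ^ 2 * (t * M)) - 1 / 100 * u * t * D := by ring
  have h9 : 1 / 100 * u * t * (1 / 1000 * u) = 1 / 10 ^ 5 * (u ^ 2 * t) := by ring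
  have h10 : u ^ 2 * t ≤ u ^ 2 * (t * M) := by
    refine mul_le_mul_of_nonneg_left ?_ (sq_nonneg u)
    nlinarith
  have e1 : (1 / 100 * u * t) ^ 2 = 1 / 10000 * (u ^ 2 * (t * t)) := by ring
  have e2 : (u * t) ^ 2 = u ^ 2 * (t * t) := by ring
  rw [he, e1, e2]
  rw [h8] at h3
  rw [h9] at h4
  have h11 : 0 ≤ u ^ 2 := sq_nonneg u
  have h12 : u ^ 2 * (t * (101 / 100 * M)) = 101 / 100 * (u ^ 2 * (t * M)) := by ring
  rw [h12] at h7
  linarith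

/-- **One slot at a deep pair.** -/
theorem own_S {σ₀ : Sl (VV n) (Fin n)} {π : VV n → V n} {s : MF n} {f r : VV n → ℝ} {z : VV n}
    (hn : 1 ≤ n) (co : SCo n C₁ CL q) (hk : PkOk q d)
    (y : Sy q d C₁ (C₁ * CL q.σ) σ₀ π s f r z) (hl : d.l (π z) < d.l₀ q + 26 / 10 * q.R)
    {N : VV n → ℝ} (N0 : q.M₀ ≤ N z) (N1 : N z ≤ 101 / 100 * q.M₀)
    (hG : |σ₀.Γ (fun z => 1 / 100 * (q.σ / q.R) * N z) (Wf q d π f) z| ≤
      1 / 10 ^ 6 * (q.σ / q.R) ^ 2) :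
    Own σ₀ (Wf q d π f) (fun z => 1 / 100 * (q.σ / q.R) * N z) (eH q (N z)) z := by
  have Nn := co.nm hn
  have hσ := co.inf.σ0
  have hσ1 := co.inf.σ1
  have hR := co.inf.R0
  have e1 : q.ε * n ≤ 1 / 2 := by linarith [co.ε1]
  have hz : z ∈ (univ : Set (VV n)) := mem_univ z
  have sL : ContDiff ℝ ∞ fun z : VV n => d.l (π z) := hk.lev.sm.comp y.p.cπ
  have hlit : d.l = levG n q.σ q.R d.kap d.Gs := hk.lev.lit
  have s0 : ∀ B : Fin n → ℝ, 0 ≤ ss σ₀ B z := fun B => y.m.s0 y.p co.ε0 e1 z B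
  have hL : ∀ B : Fin n → ℝ, 1 / 50 * (q.σ / q.R) * ss σ₀ B z ≤
      H168.INF.HH σ₀ (fun z => d.l (π z)) z B := by
    intro B
    rw [hlit]
    exact lev_HH y.p y.m hn hσ hσ1 hR co.ε0 co.ε1 co.ε2 z B
  have T1v : T1 q d (d.l (π z)) = q.M₀ := by
    rw [T1_eq]
    simp only [th_low hk hl 1, add_zero]
  have T2v : iteratedDeriv 2 d.Θ (d.l (π z)) = 0 := th_low hk hl 2
  have M1 := co.M1
  have u0 := Nn.u0
  have u1 := Nn.u1
  have Dn := Nn.Dn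
  have D1 := Nn.D1
  have D0 := Nn.D0
  have c0 := cp0 hk sL
  have hD : dl C₁ q ≤ 1 / 1000 * (q.σ / q.R) := by nlinarith
  have t1 : 1 ≤ N z := M1.trans N0
  refine ⟨fun A => ?_, ?_, ?_⟩
  · have e2 : H168.INF.HH σ₀ (Wf q d π f) z A =
        T1 q d (d.l (π z)) * H168.INF.HH σ₀ (fun z => d.l (π z)) z A +
          iteratedDeriv 2 d.Θ (d.l (π z)) * gA σ₀ (fun z => d.l (π z)) z A ^ 2 +
          H168.INF.HH σ₀ f z A := by
      have h1 : Wf q d π f = fun z => TT q d (d.l (π z)) + f z := rfl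
      rw [h1, HH_eq_add y.ok c0.s0 y.sf.contDiffOn hz, HH_comp y.ok c0 hz]
    rw [e2, T1v, T2v, zero_mul, add_zero]
    have h1 := mul_le_mul_of_nonneg_left (hL A) (zero_le_one.trans M1)
    have h2 := (abs_le.1 (y.hd co hn A)).1
    have h3 := s0 A
    have h4 : 1 / 100 * (q.σ / q.R) * N z * ss σ₀ A z ≤
        1 / 100 * (q.σ / q.R) * (101 / 100 * q.M₀) * ss σ₀ A z :=
      mul_le_mul_of_nonneg_right (mul_le_mul_of_nonneg_left N1 (by positivity)) h3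
    have h5 : 14 * (n : ℝ) ^ 3 * dl C₁ q * ss σ₀ A z ≤ 1 / 1000 * (q.σ / q.R) * q.M₀ * ss σ₀ A z := by
      refine mul_le_mul_of_nonneg_right ?_ h3
      have h6 : 1 / 1000 * (q.σ / q.R) * 1 ≤ 1 / 1000 * (q.σ / q.R) * q.M₀ :=
        mul_le_mul_of_nonneg_left M1 (by positivity)
      nlinarith
    have h7 : 0 ≤ (q.σ / q.R) * q.M₀ * ss σ₀ A z := by positivity
    linarith
  · have h1 := (slot_S hn co hk y).2.1
    have h2 : eS q ≤ eH q (N z) := by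
      unfold eS eH
      have h3 : (q.σ / q.R) * 1 ≤ (q.σ / q.R) * N z := mul_le_mul_of_nonneg_left t1 u0.le
      have h4 : ((q.σ / q.R) * 1) ^ 2 ≤ ((q.σ / q.R) * N z) ^ 2 :=
        pow_le_pow_left₀ (by positivity) h3 2
      rw [mul_one] at h4
      linarith
    linarith
  · have e2 : σ₀.Λ (Wf q d π f) z = T1 q d (d.l (π z)) * σ₀.Λ (fun z => d.l (π z)) z +
        iteratedDeriv 2 d.Θ (d.l (π z)) * σ₀.Γ (fun z => d.l (π z)) (fun z => d.l (π z)) z +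
        σ₀.Λ f z := by
      have h1 : Wf q d π f = fun z => TT q d (d.l (π z)) + f z := rfl
      rw [h1, L_add y.ok c0.s0 y.sf.contDiffOn hz, Ch.L_comp y.ok c0 hz]
    have e3 : σ₀.Λ f z = σ₀.Λ r z := by rw [L_of y.fr]
    have hLl := mul_le_mul_of_nonneg_left (y.hl0 co hn hk) (zero_le_one.trans M1)
    have h3 := (abs_le.1 y.rL).1
    have hLW : q.M₀ * (2 / 100 * (q.σ / q.R)) - dl C₁ q ≤ σ₀.Λ (Wf q d π f) z := by
      rw [e2, T1v, T2v, zero_mul, add_zero, e3]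
      linarith
    have hF : 0 ≤ σ₀.F (Wf q d π f) z := s0 fun i => σ₀.D i (Wf q d π f) z
    exact num_w u0 M1 N0 N1 hD hF hLW hG rfl

end Vale.Agent.P088.R2.H673.O3
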