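import Vale.Agent.P088.R2.H673.INF.RowRho
import Vale.Agent.P088.R2.H673.INF.O3b
import Vale.Agent.P088.R2.H380.INF.EvS

/-!
# P088, stage 3, leaf iH: row O3
-/

open MeasureTheory Set Filter
open scoped ContDiff Topology Matrix

noncomputable section

namespace Vale.Agent.P088.R2.H673.O3

open Vale.Agent.P088.R2.H961.GW Vale.Agent.P088.R2.H960.W Vale.Agent.P088.R2.H644
open Vale.Agent.P088.R2.H551.E Vale.Agent.P088.LR Vale.Agent.P088.HY Vale.Agent.P088.R2.H475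
open Vale.Agent.P088.R2.H168.INF Vale.Agent.P088.R2.H269.INF Vale.Agent.P088.R2.H31.EP
open Vale.Agent.P088.R2.H404.INF (InfC evInf lvG l₀_eq gl_le)
open Vale.Agent.P088.R2.H380.INF

variable {n : ℕ} {q : Cst} {d : Pk n} {C₁ : ℝ} {CL : ℝ → ℝ}

/-- The constant of the slope at deep levels. -/
def cc (q : Cst) : ℝ := (1 + |q.ph.Ct 0|) * |q.ph.Cb|

theorem cc_nn (q : Cst) : 0 ≤ cc q := by unfold cc; positivity

/-- The additional condition. -/
def KO (n : ℕ) (C₁ : ℝ) (CL : ℝ → ℝ) (q : Cst) : Prop :=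
  10 ^ 6 * ((1 + cc q) * (|q.M₀| * (2 * n ^ 2 * (C₁ * CL q.σ) ^ 2 + 1) + 1)) *
    Real.exp (-(4 / 5 * q.R)) ≤ (q.σ / q.R) ^ 2

theorem evKO (n : ℕ) (C₁ : ℝ) (CL : ℝ → ℝ) : EvC (KO n C₁ CL) := by
  have h1 : EvC fun q => 0 < q.b_R.σ → 10 ^ 6 * ((1 + cc q.b_R) * (|q.b_R.M₀| *
      (2 * n ^ 2 * (C₁ * CL q.b_R.σ) ^ 2 + 1) + 1)) * Real.exp (-(4 / 5 * q.R)) ≤
        (q.b_R.σ / q.R) ^ 2 := by
    refine EvC.at_R (fun q t => 0 < q.σ → 10 ^ 6 * ((1 + cc q) * (|q.M₀| *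
      (2 * n ^ 2 * (C₁ * CL q.σ) ^ 2 + 1) + 1)) * Real.exp (-(4 / 5 * t)) ≤
        (q.σ / t) ^ 2) fun q => ?_
    by_cases hσ : 0 < q.σ
    swap
    · exact Eventually.of_forall fun t h => absurd h hσ
    have k1 := (pow_exp_lin 2 (a := 4 / 5) (by norm_num)).const_mul
      (10 ^ 6 * ((1 + cc q) * (|q.M₀| * (2 * n ^ 2 * (C₁ * CL q.σ) ^ 2 + 1) + 1)))
    rw [mul_zero] at k1
    filter_upwards [ev_le k1 (δ := q.σ ^ 2) (by positivity), eventually_gt_atTop 0] with R h1 hR _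
    rw [div_pow, le_div_iff₀ (by positivity)]
    linarith
  refine (h1.and EvC.pos).mono ?_
  rintro q ⟨h, ⟨-, ⟨-, b2, -⟩, -⟩⟩
  exact h b2

/-- The derivative of the slope at deep levels. -/
theorem slope_bd (h : PkOk q d) (hR : 0 ≤ q.R) (h0 : 0 ≤ d.l₀ q) {u : ℝ} (hu : u ≤ -(4 / 5 * q.R)) :
    deriv d.Φ u ≤ q.M₀ + cc q * Real.exp (-(4 / 5 * q.R)) ∧
      |deriv (deriv d.Φ) u| ≤ cc q * Real.exp (-(4 / 5 * q.R)) := by
  have hu0 : u ≤ 0 := by linarith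
  have e1 : Real.exp u ≤ Real.exp (-(4 / 5 * q.R)) := Real.exp_le_exp.2 hu
  have key : ∀ j, j ≤ 1 → |iteratedDeriv (j + 1) (fun u => d.Φ u - q.M₀ * u) u| ≤
      cc q * Real.exp (-(4 / 5 * q.R)) := by
    intro j hj
    refine (H673.INF.phi_bd h hR hu0 h0 j).trans ?_
    have e : j - 1 = 0 := by omega
    rw [e]
    have h1 : (1 + |q.ph.Ct 0|) * q.ph.Cb ≤ cc q :=
      mul_le_mul_of_nonneg_left (le_abs_self _) (by positivity)
    exact mul_le_mul h1 e1 (Real.exp_pos _).le (cc_nn q)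
  constructor
  · have h1 := key 0 (by norm_num)
    rw [zero_add, H673.INF.deriv_sub' h.top.sm] at h1
    linarith [(abs_le.1 h1).2]
  · have h1 := key 1 le_rfl
    rw [show 1 + 1 = 0 + 2 from rfl, H673.INF.iter_sub h.top.sm, iteratedDeriv_succ,
      iteratedDeriv_one] at h1
    exact h1

/-- The gradient term. -/
theorem gam_bd {σ₀ : Sl (VV n) (Fin n)} {π : VV n → V n} {s : MF n} {f r : VV n → ℝ} {z : VV n}
    (hn : 1 ≤ n) (co : SCo n C₁ CL q) (ko : KO n C₁ CL q) (hk : PkOk q d)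
    (y : Sy q d C₁ (C₁ * CL q.σ) σ₀ π s f r z) (hl : d.l (π z) < d.l₀ q + 26 / 10 * q.R)
    (hu : d.l z.1 + d.l z.2 ≤ -(4 / 5 * q.R))
    (he : ∀ z i, σ₀.D i (fun z => d.l z.1 + d.l z.2) z = σ₀.D i (fun z => d.l (π z)) z) :
    |σ₀.Γ (fun z => 1 / 100 * (q.σ / q.R) *
      (deriv d.Φ (d.l z.1 + d.l z.2) + deriv d.Θ (d.l (π z)))) (Wf q d π f) z| ≤
      1 / 10 ^ 6 * (q.σ / q.R) ^ 2 := by
  have Nn := co.nm hn
  have hR := co.inf.R0
  have hz : z ∈ (univ : Set (VV n)) := mem_univ z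
  have sL : ContDiff ℝ ∞ fun z : VV n => d.l (π z) := hk.lev.sm.comp y.p.cπ
  have su : ContDiff ℝ ∞ fun z : VV n => d.l z.1 + d.l z.2 := (lx_sm hk).add (ly_sm hk)
  have c1 : ∀ {f : ℝ → ℝ}, ContDiff ℝ ∞ f → ContDiff ℝ ∞ (deriv f) := fun h =>
    (contDiff_infty_iff_deriv.1 h).2
  have d1 : ∀ {f : ℝ → ℝ}, ContDiff ℝ ∞ f → ∀ t, HasDerivAt f (deriv f t) t := fun h t =>
    (h.differentiable (by simp) t).hasDerivAt
  have cu : Ch.Cp univ (fun z : VV n => d.l z.1 + d.l z.2) (deriv d.Φ) (deriv (deriv d.Φ))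
      (deriv (deriv (deriv d.Φ))) :=
    Ch.Cp.of su.contDiffOn (c1 hk.top.sm) (c1 (c1 hk.top.sm)) (d1 (c1 hk.top.sm))
      (d1 (c1 (c1 hk.top.sm)))
  have cL : Ch.Cp univ (fun z : VV n => d.l (π z)) (deriv d.Θ) (deriv (deriv d.Θ))
      (deriv (deriv (deriv d.Θ))) :=
    Ch.Cp.of sL.contDiffOn (c1 hk.Θs) (c1 (c1 hk.Θs)) (d1 (c1 hk.Θs)) (d1 (c1 (c1 hk.Θs)))
  have c0 := cp0 hk sL
  have T1v : T1 q d (d.l (π z)) = q.M₀ := by
    rw [T1_eq]
    simp only [th_low hk hl 1, add_zero]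
  have T2v : deriv (deriv d.Θ) (d.l (π z)) = 0 := by
    have := th_low hk hl 2
    rwa [it2] at this
  have M1 := co.M1
  have u0 := Nn.u0
  have u1 := Nn.u1
  have e1 : σ₀.Γ (fun z => 1 / 100 * (q.σ / q.R) *
      (deriv d.Φ (d.l z.1 + d.l z.2) + deriv d.Θ (d.l (π z)))) (Wf q d π f) z =
      1 / 100 * (q.σ / q.R) * (deriv (deriv d.Φ) (d.l z.1 + d.l z.2) *
        (q.M₀ * σ₀.Γ (fun z => d.l (π z)) (fun z => d.l (π z)) z +
          σ₀.Γ (fun z => d.l (π z)) f z)) := by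
    have h1 : Wf q d π f = fun z => TT q d (d.l (π z)) + f z := rfl
    have h2 : σ₀.Γ (Wf q d π f) (fun z => d.l z.1 + d.l z.2) =
        σ₀.Γ (Wf q d π f) (fun z => d.l (π z)) := G_of _ he
    have h3 : σ₀.Γ (Wf q d π f) (fun z => d.l (π z)) z =
        q.M₀ * σ₀.Γ (fun z => d.l (π z)) (fun z => d.l (π z)) z +
          σ₀.Γ (fun z => d.l (π z)) f z := by
      rw [G_comm y.ok, h1, G_add y.ok _ c0.s0 y.sf.contDiffOn hz, Ch.G_comp y.ok _ c0 hz, T1v]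
    rw [G_comm y.ok, G_cmul y.ok _ _ (cu.s0.add cL.s0) hz, G_add y.ok _ cu.s0 cL.s0 hz,
      Ch.G_comp y.ok _ cu hz, Ch.G_comp y.ok _ cL hz, T2v, zero_mul, add_zero, h2, h3]
  have h0 := H404.INF.l₀_nonneg co.inf hk
  have hs := (slope_bd hk hR.le h0 hu).2
  have A1 := Nn.A1
  have hGL : |σ₀.Γ (fun z => d.l (π z)) (fun z => d.l (π z)) z| ≤
      2 * n ^ 2 * (C₁ * CL q.σ) ^ 2 := by
    unfold Sl.Γ
    refine (Finset.abs_sum_le_sum_abs _ _).trans ((Finset.sum_le_sum fun i _ =>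
      Finset.abs_sum_le_sum_abs _ _).trans ?_)
    refine (Finset.sum_le_sum (g := fun _ => ∑ _j : Fin n, 2 * (C₁ * CL q.σ) * (C₁ * CL q.σ))
      fun i _ => Finset.sum_le_sum fun j _ => ?_).trans (le_of_eq ?_)
    · rw [abs_mul, abs_mul]
      exact mul_le_mul (mul_le_mul (y.bS co hn i j) (y.l1 i) (abs_nonneg _) (by norm_num))
        (y.l1 j) (abs_nonneg _) (by positivity)
    · simp only [Finset.sum_const, Finset.card_univ, Fintype.card_fin, nsmul_eq_mul]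
      ring
  have hGf := y.hd3 co hn
  have hb : |q.M₀ * σ₀.Γ (fun z => d.l (π z)) (fun z => d.l (π z)) z +
      σ₀.Γ (fun z => d.l (π z)) f z| ≤ |q.M₀| * (2 * n ^ 2 * (C₁ * CL q.σ) ^ 2 + 1) := by
    refine (abs_add_le _ _).trans ?_
    rw [abs_mul]
    have h1 := mul_le_mul_of_nonneg_left hGL (abs_nonneg q.M₀)
    have h2 : |q.M₀| = q.M₀ := abs_of_nonneg (by linarith)
    rw [h2] at h1 ⊢
    linarith
  rw [e1, abs_mul, abs_mul (deriv (deriv d.Φ) _),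
    abs_of_nonneg (by positivity : 0 ≤ 1 / 100 * (q.σ / q.R))]
  set E := Real.exp (-(4 / 5 * q.R)) with hE
  have E0 : 0 < E := Real.exp_pos _
  set B := |q.M₀| * (2 * n ^ 2 * (C₁ * CL q.σ) ^ 2 + 1) with hB
  have B0 : 0 ≤ B := by positivity
  have h3 : |deriv (deriv d.Φ) (d.l z.1 + d.l z.2)| *
      |q.M₀ * σ₀.Γ (fun z => d.l (π z)) (fun z => d.l (π z)) z + σ₀.Γ (fun z => d.l (π z)) f z| ≤
      (cc q * E) * B := mul_le_mul hs hb (abs_nonneg _) (mul_nonneg (cc_nn q) E0.le)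
  have h4 : (cc q * E) * B ≤ (1 + cc q) * (B + 1) * E := by
    have := cc_nn q
    have h5 : 0 ≤ cc q * E := mul_nonneg this E0.le
    nlinarith [mul_nonneg E0.le B0]
  have h5 : 10 ^ 6 * ((1 + cc q) * (B + 1)) * E ≤ (q.σ / q.R) ^ 2 := ko
  have h6 : 1 / 100 * (q.σ / q.R) * ((cc q * E) * B) ≤ 1 * ((1 + cc q) * (B + 1) * E) := by
    refine mul_le_mul (by linarith) h4 ?_ zero_le_one
    have := cc_nn q
    positivity
  have h7 := mul_le_mul_of_nonneg_left h3 (by positivity : 0 ≤ 1 / 100 * (q.σ / q.R))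
  linarith

/-- The bound of the slope. -/
theorem N_bd (hn : 1 ≤ n) (co : SCo n C₁ CL q) (ko : KO n C₁ CL q) (hk : PkOk q d) {u : ℝ}
    (hu : u ≤ -(4 / 5 * q.R)) : deriv d.Φ u ≤ 101 / 100 * q.M₀ := by
  have Nn := co.nm hn
  have hR := co.inf.R0
  have h0 := H404.INF.l₀_nonneg co.inf hk
  have hs := (slope_bd hk hR.le h0 hu).1
  have M1 := co.M1
  have u0 := Nn.u0
  have u1 := Nn.u1
  have E0 : 0 < Real.exp (-(4 / 5 * q.R)) := Real.exp_pos _
  have h5 : 10 ^ 6 * ((1 + cc q) * (|q.M₀| * (2 * n ^ 2 * (C₁ * CL q.σ) ^ 2 + 1) + 1)) *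
    Real.exp (-(4 / 5 * q.R)) ≤ (q.σ / q.R) ^ 2 := ko
  set E := Real.exp (-(4 / 5 * q.R)) with hE
  set B := |q.M₀| * (2 * n ^ 2 * (C₁ * CL q.σ) ^ 2 + 1) with hB
  have B0 : 0 ≤ B := by positivity
  have c0 := cc_nn q
  have h6 : cc q * E ≤ (1 + cc q) * (B + 1) * E := by
    have h7 : 0 ≤ cc q * E := mul_nonneg c0 E0.le
    nlinarith [mul_nonneg E0.le B0, mul_nonneg h7 B0]
  have h8 : (q.σ / q.R) ^ 2 ≤ 1 := by nlinarith
  linarith

/-- **Row O3.** -/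
theorem rowO3 (n : ℕ) : RowO3 n := by
  rcases Nat.eq_zero_or_pos n with rfl | hn
  · refine evInf.mono ?_
    rintro q hq d hk z hd
    have e : z.1 = z.2 := Subsingleton.elim _ _
    have h0 := H404.INF.l₀_nonneg hq hk
    have hR := hq.R0
    have s0 : 0 < q.R / q.σ := div_pos hR hq.σ0
    have hs := Real.sqrt_nonneg (q.R ^ 2 + HY.sq (z.1 - z.2))
    constructor
    · rintro ⟨a1, -, -⟩
      exfalso
      rw [← e] at hd
      rw [← e] at hs
      linarith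
    · rintro ⟨a1, -, -⟩
      exfalso
      rw [e] at hd hs
      linarith
  obtain ⟨C₁, CL, hC, hL, c⟩ := exists_cns hn
  refine (((evSCo n hC hL).and (evKO n C₁ CL)).and (H673.INF.rowRho n)).mono ?_
  rintro q ⟨⟨co, ko⟩, hr⟩ d hk z hd
  have hq := co.inf
  have hR := hq.R0
  have hR1 := hq.R1
  have hσ := hq.σ0
  have hσ1 := hq.σ1
  have h0 := H404.INF.l₀_nonneg hq hk
  have s0 : 0 < q.R / q.σ := div_pos hR hσ
  have hsq : q.R ≤ √(q.R ^ 2 + HY.sq (z.1 - z.2)) := by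
    refine Real.le_sqrt_of_sq_le ?_
    have : 0 ≤ HY.sq (z.1 - z.2) := by unfold HY.sq; positivity
    linarith
  have hu : d.l z.1 + d.l z.2 ≤ -(4 / 5 * q.R) := by linarith
  constructor
  · rintro ⟨a1, a2, a3⟩
    have b1 : d.l z.2 < d.l₀ q + 26 / 10 * q.R := by linarith
    have hrr : ∀ j, 1 ≤ j → j ≤ 4 → ‖iteratedFDeriv ℝ j (ρ0 q d) z‖ ≤ q.R⁻¹ ^ 8 :=
      hr d hk z a2 (by linarith) hd
    have y := sy_y hn c co hk (by linarith) hrr
    have t0 : deriv d.Θ (d.l z.2) = 0 := by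
      have := th_low hk b1 1
      rwa [iteratedDeriv_one] at this
    have e1 : wY0 q d = Wf q d Prod.snd (fun z => W0 q d z - q.M₀ * d.l z.2) := by
      funext w
      unfold wY0 Wf H380.INF.TT
      ring
    have hN := (hk.ph.isΦ.n1 (d.l z.1 + d.l z.2)).trans (hk.top.l1 (d.l z.1 + d.l z.2))
    have G := gam_bd hn co ko hk y b1 hu fun w i => by
      have e := D_add d.sy isOpen_univ (lx_sm hk).contDiffOn (ly_sm hk).contDiffOn i (mem_univ w)
      have e2 : d.sy.D i (fun z : VV n => d.l z.1) w = 0 :=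
        Dy_fst (hk.lev.sm.differentiable (by simp) w.1) i
      rw [e, e2, zero_add]
    unfold OY
    rw [e1]
    refine own_S (N := hY0 q d) hn co hk y b1 ?_ ?_ G
    · unfold hY0
      rw [t0]
      linarith
    · unfold hY0
      rw [t0, add_zero]
      exact N_bd hn co ko hk hu
  · rintro ⟨a1, a2, a3⟩
    have b1 : d.l z.1 < d.l₀ q + 26 / 10 * q.R := by linarith
    have hrr : ∀ j, 1 ≤ j → j ≤ 4 → ‖iteratedFDeriv ℝ j (ρ0 q d) z‖ ≤ q.R⁻¹ ^ 8 :=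
      hr d hk z (by linarith) a2 hd
    have y := sy_x hn c co hk (by linarith) hrr
    have t0 : deriv d.Θ (d.l z.1) = 0 := by
      have := th_low hk b1 1
      rwa [iteratedDeriv_one] at this
    have e1 : wX0 q d = Wf q d Prod.fst (fun z => W0 q d z - q.M₀ * d.l z.1) := by
      funext w
      unfold wX0 Wf H380.INF.TT
      ring
    have hN := (hk.ph.isΦ.n1 (d.l z.1 + d.l z.2)).trans (hk.top.l1 (d.l z.1 + d.l z.2))
    have G := gam_bd hn co ko hk y b1 hu fun w i => by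
      have e := D_add d.sx isOpen_univ (lx_sm hk).contDiffOn (ly_sm hk).contDiffOn i (mem_univ w)
      have e2 : d.sx.D i (fun z : VV n => d.l z.2) w = 0 :=
        Dx_snd (hk.lev.sm.differentiable (by simp) w.2) i
      rw [e, e2, add_zero]
    unfold OX
    rw [e1]
    refine own_S (N := hX0 q d) hn co hk y b1 ?_ ?_ G
    · unfold hX0
      rw [t0]
      linarith
    · unfold hX0
      rw [t0, add_zero]
      exact N_bd hn co ko hk hu

end Vale.Agent.P088.R2.H673.O3
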