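import Vale.Agent.P088.R2.H31.EP.Pack

/-!
# P088, stage 3, zone INF: scalar bounds at deep levels

`Φ' - M₀ ≤ C e^u`, `|Φ^(j+2)| ≤ C e^u`, `S(r²) ≤ C e^(4r/5)`, `|D_ij(f, r)| ≤ C e^(f + τ r / 2)`.
-/

open Set Filter
open scoped ContDiff Topology

noncomputable section

namespace Vale.Agent.P088.R2.H673.INF

open Vale.Agent.P088.R2.H31.EP

/-! ### The slope at `-∞` -/

/-- `Φ' ≤ M₀ + C e^u`. -/
theorem n_sub {ρ κ nm ν C1 C2 C3 al be Cb M0 : ℝ} {Cd : ℕ → ℝ} {Φ : ℝ → ℝ}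
    (h : H313.Ph.IsPhiU ρ κ nm ν C1 C2 C3 al be Cb Cd M0 Φ) (u : ℝ) :
    deriv Φ u - M0 ≤ Cb * Real.exp u := by
  have s1 : ContDiff ℝ ∞ (deriv Φ) := (contDiff_infty_iff_deriv.1 h.sm).2
  have d1 : ∀ v, HasDerivAt Φ (deriv Φ v) v := fun v =>
    (h.sm.differentiable (by simp) v).hasDerivAt
  have d2 : ∀ v, HasDerivAt (deriv Φ) (deriv (deriv Φ) v) v := fun v =>
    (s1.differentiable (by simp) v).hasDerivAt
  have hCb : 0 ≤ Cb := by
    have h1 := (h.k0 0).le.trans (h.k2 0)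
    rwa [Real.exp_zero, mul_one] at h1
  by_contra hc
  push Not at hc
  set a : ℝ := deriv Φ u - Cb * Real.exp u with ha
  have haM : M0 < a := by linarith
  -- `Φ' ≥ a` below `u`
  have A1 : Antitone fun v => deriv Φ v - Cb * Real.exp v := by
    have hd : ∀ v, HasDerivAt (fun v => deriv Φ v - Cb * Real.exp v)
        (deriv (deriv Φ) v - Cb * Real.exp v) v := fun v =>
      (d2 v).sub ((Real.hasDerivAt_exp v).const_mul Cb)
    refine antitone_of_deriv_nonpos (fun v => (hd v).differentiableAt) fun v => ?_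
    rw [(hd v).deriv]
    linarith [h.k2 v]
  have A2 : ∀ v, v ≤ u → a ≤ deriv Φ v := fun v hv => by
    have h1 := A1 hv
    simp only at h1
    have h2 : 0 ≤ Cb * Real.exp v := mul_nonneg hCb (Real.exp_pos v).le
    linarith
  have A3 : MonotoneOn (fun v => Φ v - a * v) (Iic u) := by
    have hd : ∀ v, HasDerivAt (fun v => Φ v - a * v) (deriv Φ v - a) v := fun v =>
      ((d1 v).fun_sub ((hasDerivAt_id' v).const_mul a)).congr_deriv (by ring)
    refine monotoneOn_of_deriv_nonneg (convex_Iic u)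
      (fun v _ => (hd v).continuousAt.continuousWithinAt)
      (fun v _ => (hd v).differentiableAt.differentiableWithinAt) fun v hv => ?_
    rw [(hd v).deriv]
    rw [interior_Iic] at hv
    linarith [A2 v (le_of_lt hv)]
  set c : ℝ := Φ u - a * u + Cb with hcd
  have A4 : ∀ v, v ≤ u → (M0 - a) * v ≤ c := fun v hv => by
    have h1 := A3 hv (mem_Iic.2 le_rfl) hv
    simp only at h1
    have h2 := h.lo v
    linarith
  have h3 := A4 (min u (-((|c| + 1) / (a - M0)))) (min_le_left _ _)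
  have h4 : min u (-((|c| + 1) / (a - M0))) ≤ -((|c| + 1) / (a - M0)) := min_le_right _ _
  have h5 : 0 < a - M0 := by linarith
  have h6 : (a - M0) * ((|c| + 1) / (a - M0)) = |c| + 1 := by
    field_simp
  have h7 := mul_le_mul_of_nonneg_left h4 h5.le
  have h8 := le_abs_self c
  linarith

/-- The slope minus its limit. -/
theorem iter_sub {Φ : ℝ → ℝ} (hs : ContDiff ℝ ∞ Φ) (M0 : ℝ) (j : ℕ) (u : ℝ) :
    iteratedDeriv (j + 2) (fun u => Φ u - M0 * u) u = iteratedDeriv (j + 2) Φ u := by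
  have e : deriv (fun u => Φ u - M0 * u) = fun u => deriv Φ u - M0 := by
    funext v
    have h1 : HasDerivAt (fun v => Φ v - M0 * v) (deriv Φ v - M0) v :=
      ((hs.differentiable (by simp) v).hasDerivAt.fun_sub
        ((hasDerivAt_id' v).const_mul M0)).congr_deriv (by ring)
    exact h1.deriv
  have e2 : deriv (fun u => deriv Φ u - M0) = deriv (deriv Φ) := by
    funext v
    exact deriv_sub_const (f := deriv Φ) M0
  rw [iteratedDeriv_succ', iteratedDeriv_succ', e, e2, iteratedDeriv_succ', iteratedDeriv_succ']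

theorem deriv_sub' {Φ : ℝ → ℝ} (hs : ContDiff ℝ ∞ Φ) (M0 : ℝ) (u : ℝ) :
    iteratedDeriv 1 (fun u => Φ u - M0 * u) u = deriv Φ u - M0 := by
  rw [iteratedDeriv_one]
  have h1 : HasDerivAt (fun v => Φ v - M0 * v) (deriv Φ u - M0) u :=
    ((hs.differentiable (by simp) u).hasDerivAt.fun_sub
      ((hasDerivAt_id' u).const_mul M0)).congr_deriv (by ring)
  exact h1.deriv

variable {n : ℕ}

/-- **The derivatives of `Φ - M₀ u` at deep levels.** -/
theorem phi_bd {q : Cst} {d : Pk n} (h : PkOk q d) (hR : 0 ≤ q.R) {u : ℝ} (hu : u ≤ 0)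
    (h0 : 0 ≤ d.l₀ q) (j : ℕ) :
    |iteratedDeriv (j + 1) (fun u => d.Φ u - q.M₀ * u) u| ≤
      (1 + |q.ph.Ct (j - 1)|) * q.ph.Cb * Real.exp u := by
  have e1 : d.uth q = 2 * d.l₀ q + 22 / 10 * q.R := rfl
  have e2 : d.uta q = 2 * d.l₀ q + 45 / 10 * q.R := rfl
  have ht : u ≤ d.uth q / 2 := by linarith
  have hta : u ≤ d.uta q := by linarith
  have hP := h.ph.isΦ
  have hK := hP.k2 u
  have hK0 := hP.k0 u
  have hE := Real.exp_pos u
  have hX : 0 ≤ q.ph.Cb * Real.exp u := hK0.le.trans hK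
  rcases j with _ | j
  · rw [zero_add, deriv_sub' h.top.sm, h.top.e1 u ht]
    have h1 := hP.n1 u
    rw [abs_of_nonneg (by linarith)]
    refine (n_sub hP u).trans ?_
    have : 0 ≤ |q.ph.Ct (0 - 1)| * (q.ph.Cb * Real.exp u) := mul_nonneg (abs_nonneg _) hX
    nlinarith
  · rw [iter_sub h.top.sm]
    refine (h.top.kd j u hta).trans ?_
    rw [h.top.e2 u ht, Nat.add_sub_cancel]
    have h1 : q.ph.Ct j * deriv (deriv d.Φ₁) u ≤ |q.ph.Ct j| * (q.ph.Cb * Real.exp u) :=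
      mul_le_mul (le_abs_self _) hK hK0.le (abs_nonneg _)
    nlinarith

/-! ### The profile -/

/-- `S(r²) ≤ C e^(4r/5)`. -/
theorem prS_exp {e₁ : ℝ} (he : 0 < e₁) : ∃ C, 0 < C ∧ ∀ r, 0 < r →
    prS e₁ (r ^ 2) ≤ C * Real.exp (4 / 5 * r) := by
  have hp : H644.PP 2 Li e₁ rp dp := by
    refine ⟨two_pos, by unfold Li; norm_num, he, by unfold rp; norm_num, by unfold dp; norm_num, ?_⟩
    have h1 : Real.exp dp ≤ Real.exp (1 / 2) := Real.exp_le_exp.2 (by unfold dp; norm_num)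
    have h2 : Real.exp (1 / 2) ≤ 2 := by
      have h3 : Real.exp (1 / 2) ^ 2 = Real.exp 1 := by
        rw [← Real.exp_nat_mul]; norm_num
      have h4 := Real.exp_one_lt_d9
      by_contra hc
      push Not at hc
      have : (2 : ℝ) ^ 2 < Real.exp (1 / 2) ^ 2 := by gcongr
      rw [h3] at this
      linarith
    unfold Li
    linarith
  obtain ⟨R₁, hR, hR1⟩ := hp.exists_R
  have hR0 : 0 < R₁ := hp.r0.trans hR
  have hS : 0 < prS e₁ (R₁ ^ 2) := hp.S_pos (by positivity)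
  refine ⟨prS e₁ (R₁ ^ 2), hS, fun r hr => ?_⟩
  rcases le_total R₁ r with h1 | h1
  · have h2 := hp.S_far hR0 (fun r hr => (hR1 r hr).1) h1
    have h3 : prS e₁ (r ^ 2) = prS e₁ (R₁ ^ 2) * Real.exp (Li * (r - R₁)) := h2
    rw [h3]
    refine mul_le_mul_of_nonneg_left (Real.exp_le_exp.2 ?_) hS.le
    unfold Li
    linarith
  · have h2 : prS e₁ (r ^ 2) ≤ prS e₁ (R₁ ^ 2) := by
      have hm : MonotoneOn (prS e₁) (Ici 0) := by
        refine monotoneOn_of_deriv_nonneg (convex_Ici 0) ?_ ?_ ?_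
        · exact (hp.contDiff_Ph).continuous.continuousOn
        · exact ((hp.contDiff_Ph).differentiable (by simp)).differentiableOn
        · intro s hs
          rw [interior_Ici] at hs
          have h1 : HasDerivAt (prS e₁) (H644.Ph1 2 Li e₁ rp dp s) s := (hp.d2_Ph).d1 s
          rw [h1.deriv]
          exact (hp.Ph1_pos (le_of_lt hs)).le
      exact hm (mem_Ici.2 (by positivity)) (mem_Ici.2 (by positivity))
        (pow_le_pow_left₀ hr.le h1 2)
    have h3 : 1 ≤ Real.exp (4 / 5 * r) := Real.one_le_exp (by positivity)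
    nlinarith

/-! ### The slow exponential -/

/-- `|D_ij(f, r)| ≤ 2 |C_ij| e^(f + τ r / 2)`. -/
theorem slow_bd {q : Cst} {d : Pk n} (h : PkOk q d) (hs1 : q.es ≤ 1) {z : ℝ × ℝ}
    (hz : 0 < z.2) {i j : ℕ} (hij : 1 ≤ i + j) :
    |q.D i j z| ≤ 2 * |slB i j| * Real.exp (z.1 + q.es * z.2 / 2) := by
  have h1 := h.sl.bd1 i j z hz hij
  have h2 := h.sl.G_u z hz
  have h3 := h.sl.u_dist z hz
  have hG := h.sl.G_pos z hz
  have hu : H768.W.uu q.τ q.r₁ z ≤ z.1 + q.es * z.2 / 2 := by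
    have := abs_le.1 h3
    have h4 : q.τ * z.2 ≤ q.es * z.2 := mul_le_mul_of_nonneg_right h.τ1 hz.le
    linarith [this.2]
  have hE := Real.exp_pos (H768.W.uu q.τ q.r₁ z)
  have h5 : q.D 1 0 z ≤ 2 * Real.exp (H768.W.uu q.τ q.r₁ z) := by
    have := (abs_le.1 h2).2
    nlinarith
  have h6 : Real.exp (H768.W.uu q.τ q.r₁ z) ≤ Real.exp (z.1 + q.es * z.2 / 2) :=
    Real.exp_le_exp.2 hu
  calc |q.D i j z| ≤ slB i j * q.D 1 0 z := h1
    _ ≤ |slB i j| * q.D 1 0 z := mul_le_mul_of_nonneg_right (le_abs_self _) hG.le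
    _ ≤ |slB i j| * (2 * Real.exp (z.1 + q.es * z.2 / 2)) :=
        mul_le_mul_of_nonneg_left (by linarith) (abs_nonneg _)
    _ = _ := by ring

end Vale.Agent.P088.R2.H673.INF
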