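import Vale.Agent.P088.R2.H673.INF.Lo
import Vale.Agent.P088.R2.H168.INF.Spec2
import Vale.Agent.P088.R2.H380.INF.PnS

/-!
# P088, stage 3, leaf iH, row O3: one slot of a deep pair

One level in `[l₀ + 2.85 R, l₀ + 3.1 R]`, the pair is deep: the weight without retraction is
`M₀ l` of the other slot up to a negligible function.
-/

open MeasureTheory Set Filter
open scoped ContDiff Topology Matrix

noncomputable section

namespace Vale.Agent.P088.R2.H673.O3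

open Vale.Agent.P088.R2.H961.GW Vale.Agent.P088.R2.H960.W Vale.Agent.P088.R2.H644
open Vale.Agent.P088.R2.H551.E Vale.Agent.P088.LR Vale.Agent.P088.HY Vale.Agent.P088.R2.H475
open Vale.Agent.P088.R2.H168.INF Vale.Agent.P088.R2.H269.INF Vale.Agent.P088.R2.H31.EP
open Vale.Agent.P088.R2.H404.INF (InfC evInf lvG l₀_eq gl_le)
open Vale.Agent.P088.R2.H380.INF

variable {n : ℕ} {q : Cst} {d : Pk n} {C₁ : ℝ} {CL : ℝ → ℝ}

/-- The negligible function. -/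
def ρ0 (q : Cst) (d : Pk n) (z : VV n) : ℝ := W0 q d z - q.M₀ * (d.l z.1 + d.l z.2)

theorem W0_smO (h : PkOk q d) (hε : n * q.ε ≤ 1 / 2) : ContDiff ℝ ∞ (W0 q d) :=
  WW_smooth h.ok h.lev.sm (h.gi_sm hε)

theorem lx_sm (h : PkOk q d) : ContDiff ℝ ∞ fun z : VV n => d.l z.1 :=
  h.lev.sm.comp contDiff_fst

theorem ly_sm (h : PkOk q d) : ContDiff ℝ ∞ fun z : VV n => d.l z.2 :=
  h.lev.sm.comp contDiff_snd

theorem ρ0_sm (h : PkOk q d) (hε : n * q.ε ≤ 1 / 2) : ContDiff ℝ ∞ (ρ0 q d) :=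
  (W0_smO h hε).sub (contDiff_const.mul ((lx_sm h).add (ly_sm h)))

/-- The slot of `y`. -/
theorem sy_y (hn : 1 ≤ n) (c : Cns n C₁ CL) (co : SCo n C₁ CL q) (h : PkOk q d) {z : VV n}
    (hz : d.l z.2 ≤ d.l₀ q + 59 / 20 * q.R)
    (hr : ∀ j, 1 ≤ j → j ≤ 4 → ‖iteratedFDeriv ℝ j (ρ0 q d) z‖ ≤ q.R⁻¹ ^ 8) :
    Sy q d C₁ (C₁ * CL q.σ) d.sy Prod.snd d.s₂ (fun z => W0 q d z - q.M₀ * d.l z.2)
      (ρ0 q d) z := by
  have hq := co.inf
  have hR := hq.R0
  have hR1 := hq.R1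
  have hn' : (1 : ℝ) ≤ n := by exact_mod_cast hn
  have he1 : q.ε ≤ 1 := by nlinarith [co.ε1, co.ε0]
  have hε : n * q.ε ≤ 1 / 2 := by linarith [co.ε1, mul_comm (n : ℝ) q.ε]
  have m1 := mt₁ le_rfl hR h.rg
  have m2 := mt₂ le_rfl hR h.rg
  have sr := ρ0_sm h hε
  have C0 : 0 ≤ C₁ := by linarith [co.c1]
  have b := (c.sb q.R d.s₁ d.s₂ (ρ0 q d) (bs_of h hR1 he1 sr) z).2
  have g : ∀ j ≤ 3, gm q.R (ρ0 q d) j z ≤ 4 * q.R⁻¹ ^ 8 := fun j hj => by
    have h1 := gm_le hR1 (f := ρ0 q d) (z := z) (k := 3) (δ := q.R⁻¹ ^ 8) (by positivity)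
      (fun i h1 h2 => hr i h1 h2) hj
    refine h1.trans (mul_le_mul_of_nonneg_right ?_ (by positivity))
    have : (j : ℝ) ≤ 3 := by exact_mod_cast hj
    linarith
  have g' : ∀ j ≤ 3, C₁ * gm q.R (ρ0 q d) j z ≤ dl C₁ q := fun j hj => by
    have := mul_le_mul_of_nonneg_left (g j hj) C0
    unfold dl
    linarith
  have bL := (c.sb q.R d.s₁ d.s₂ (fun z => d.l z.2) (bs_of h hR1 he1 (ly_sm h)) z).2
  have hx : z.2 ∈ Bw n q.σ q.R := by
    refine Bw_of (kap := d.kap) (Gs := d.Gs) hq.σ0 hq.σ1 hR ?_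
    rw [← h.lev.lit, ← l₀_eq]
    linarith
  have k : ∀ j ≤ 3, gm q.R (fun z : VV n => d.l z.2) j z ≤ (j + 1) * (CL q.σ * q.R⁻¹ ^ j) :=
    fun j hj => gm_sym hR (k := 3) (fun i hi => (nit_snd h.lev.sm (i + 1) z).trans (by
      rw [h.lev.lit]
      exact c.lv q.σ q.R d.kap d.Gs hq.σ0 hq.σ1 hR z.2 hx i hi)) hj
  refine ⟨pj_y _, m2, ok_y m1 m2, (W0_smO h hε).sub (contDiff_const.mul (ly_sm h)),
    fun w i => ?_, (gl_le hq h).2 hz,
    fun i => (b.d1 i).trans (g' 0 (by norm_num)), fun i j => (b.d2 i j).trans (g' 1 (by norm_num)),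
    b.L1.trans (g' 1 (by norm_num)), b.m1.trans (g' 3 (by norm_num)), fun i => ?_,
    fun i j => ?_, ?_⟩
  · have e0 : (fun z => W0 q d z - q.M₀ * d.l z.2) =
        fun z => ρ0 q d z + q.M₀ * d.l z.1 := by
      funext z
      unfold ρ0
      ring
    rw [e0]
    have e1 := D_add d.sy isOpen_univ sr.contDiffOn
      (contDiff_const.mul (lx_sm h)).contDiffOn (g := fun z : VV n => q.M₀ * d.l z.1) i (mem_univ w)
    have e2 : d.sy.D i (fun z : VV n => q.M₀ * d.l z.1) w = 0 :=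
      Dy_fst (g := fun x => q.M₀ * d.l x)
        ((contDiff_const.mul h.lev.sm).differentiable (by simp) w.1) i
    rw [e1, e2, add_zero]
  · have h1 := k 0 (by norm_num)
    have h2 := (bL.d1 i).trans (mul_le_mul_of_nonneg_left h1 C0)
    refine h2.trans (le_of_eq ?_)
    push_cast
    ring
  · have h1 := k 1 (by norm_num)
    have h2 := (bL.d2 i j).trans (mul_le_mul_of_nonneg_left h1 C0)
    refine h2.trans (le_of_eq ?_)
    push_cast
    ring
  · have h1 := k 3 (by norm_num)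
    have h2 := bL.m1.trans (mul_le_mul_of_nonneg_left h1 C0)
    refine h2.trans (le_of_eq ?_)
    push_cast
    ring

/-- The slot of `x`. -/
theorem sy_x (hn : 1 ≤ n) (c : Cns n C₁ CL) (co : SCo n C₁ CL q) (h : PkOk q d) {z : VV n}
    (hz : d.l z.1 ≤ d.l₀ q + 59 / 20 * q.R)
    (hr : ∀ j, 1 ≤ j → j ≤ 4 → ‖iteratedFDeriv ℝ j (ρ0 q d) z‖ ≤ q.R⁻¹ ^ 8) :
    Sy q d C₁ (C₁ * CL q.σ) d.sx Prod.fst d.s₁ (fun z => W0 q d z - q.M₀ * d.l z.1)
      (ρ0 q d) z := by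
  have hq := co.inf
  have hR := hq.R0
  have hR1 := hq.R1
  have hn' : (1 : ℝ) ≤ n := by exact_mod_cast hn
  have he1 : q.ε ≤ 1 := by nlinarith [co.ε1, co.ε0]
  have hε : n * q.ε ≤ 1 / 2 := by linarith [co.ε1, mul_comm (n : ℝ) q.ε]
  have m1 := mt₁ le_rfl hR h.rg
  have m2 := mt₂ le_rfl hR h.rg
  have sr := ρ0_sm h hε
  have C0 : 0 ≤ C₁ := by linarith [co.c1]
  have b := (c.sb q.R d.s₁ d.s₂ (ρ0 q d) (bs_of h hR1 he1 sr) z).1
  have g : ∀ j ≤ 3, gm q.R (ρ0 q d) j z ≤ 4 * q.R⁻¹ ^ 8 := fun j hj => by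
    have h1 := gm_le hR1 (f := ρ0 q d) (z := z) (k := 3) (δ := q.R⁻¹ ^ 8) (by positivity)
      (fun i h1 h2 => hr i h1 h2) hj
    refine h1.trans (mul_le_mul_of_nonneg_right ?_ (by positivity))
    have : (j : ℝ) ≤ 3 := by exact_mod_cast hj
    linarith
  have g' : ∀ j ≤ 3, C₁ * gm q.R (ρ0 q d) j z ≤ dl C₁ q := fun j hj => by
    have := mul_le_mul_of_nonneg_left (g j hj) C0
    unfold dl
    linarith
  have bL := (c.sb q.R d.s₁ d.s₂ (fun z => d.l z.1) (bs_of h hR1 he1 (lx_sm h)) z).1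
  have hx : z.1 ∈ Bw n q.σ q.R := by
    refine Bw_of (kap := d.kap) (Gs := d.Gs) hq.σ0 hq.σ1 hR ?_
    rw [← h.lev.lit, ← l₀_eq]
    linarith
  have k : ∀ j ≤ 3, gm q.R (fun z : VV n => d.l z.1) j z ≤ (j + 1) * (CL q.σ * q.R⁻¹ ^ j) :=
    fun j hj => gm_sym hR (k := 3) (fun i hi => (nit_fst h.lev.sm (i + 1) z).trans (by
      rw [h.lev.lit]
      exact c.lv q.σ q.R d.kap d.Gs hq.σ0 hq.σ1 hR z.1 hx i hi)) hj
  refine ⟨pj_x _, m1, ok_x m1 m2, (W0_smO h hε).sub (contDiff_const.mul (lx_sm h)),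
    fun w i => ?_, (gl_le hq h).2 hz,
    fun i => (b.d1 i).trans (g' 0 (by norm_num)), fun i j => (b.d2 i j).trans (g' 1 (by norm_num)),
    b.L1.trans (g' 1 (by norm_num)), b.m1.trans (g' 3 (by norm_num)), fun i => ?_,
    fun i j => ?_, ?_⟩
  · have e0 : (fun z => W0 q d z - q.M₀ * d.l z.1) =
        fun z => ρ0 q d z + q.M₀ * d.l z.2 := by
      funext z
      unfold ρ0
      ring
    rw [e0]
    have e1 := D_add d.sx isOpen_univ sr.contDiffOn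
      (contDiff_const.mul (ly_sm h)).contDiffOn (g := fun z : VV n => q.M₀ * d.l z.2) i (mem_univ w)
    have e2 : d.sx.D i (fun z : VV n => q.M₀ * d.l z.2) w = 0 :=
      Dx_snd (g := fun x => q.M₀ * d.l x)
        ((contDiff_const.mul h.lev.sm).differentiable (by simp) w.2) i
    rw [e1, e2, add_zero]
  · have h1 := k 0 (by norm_num)
    have h2 := (bL.d1 i).trans (mul_le_mul_of_nonneg_left h1 C0)
    refine h2.trans (le_of_eq ?_)
    push_cast
    ring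
  · have h1 := k 1 (by norm_num)
    have h2 := (bL.d2 i j).trans (mul_le_mul_of_nonneg_left h1 C0)
    refine h2.trans (le_of_eq ?_)
    push_cast
    ring
  · have h1 := k 3 (by norm_num)
    have h2 := bL.m1.trans (mul_le_mul_of_nonneg_left h1 C0)
    refine h2.trans (le_of_eq ?_)
    push_cast
    ring

end Vale.Agent.P088.R2.H673.O3
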