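import Vale.Agent.P088.R2.H269.INF.Geo
import Vale.Agent.P088.R2.H269.INF.Sg
import Vale.Agent.P088.R2.H404.INF.Alv
import Vale.Agent.P088.R2.H509.EP.Lit2
import Vale.Agent.P088.R2.H168.INF.Spec
import Vale.Agent.P088.R2.H673.INF.Lo

/-!
# P088, stage 3, zone INF: the weight at deep levels is separable up to a negligible function
-/

open Set Filter
open scoped ContDiff Topology Matrix

noncomputable section

namespace Vale.Agent.P088.R2.H673.INF

open Vale.Agent.P088.LR Vale.Agent.P088.HY Vale.Agent.P088.R2.H464.Cu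
open Vale.Agent.P088.R2.H644.Sy Vale.Agent.P088.R2.H644.Ch Vale.Agent.P088.R2.H644.Ep
open Vale.Agent.P088.R2.H31.EP Vale.Agent.P088.R2.H475 Vale.Agent.P088.R2.H768.FarJ
open Vale.Agent.P088.R2.H961.GW Vale.Agent.P088.R2.H657.W
open Vale.Agent.P088.R2.H269.INF
open Vale.Agent.P088.R2.H168.INF (W0 RowRho)

variable {n : ℕ}

/-! ## The region -/

/-- The deep region. -/
def UD (q : Cst) (d : Pk n) : Set (VV n) :=
  {z | d.l z.1 < d.l₀ q + 16 / 5 * q.R ∧ d.l z.2 < d.l₀ q + 16 / 5 * q.R ∧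
    d.l z.1 + d.l z.2 + 4 / 5 * √(q.R ^ 2 + HY.sq (z.1 - z.2)) < -(49 / 10000) * (q.R / q.σ)}

/-- The conditions. -/
structure Dp (n : ℕ) (R₀ : ℝ) (q : Cst) (d : Pk n) : Prop where
  n1 : 1 ≤ n
  σ0 : 0 < q.σ
  σ1 : q.σ ≤ 1 / 5000
  e0 : 0 < q.e₁
  pk : PkOk q d
  M1 : 1 ≤ q.M₀
  Cs1 : 1 ≤ q.Cs
  s0 : 0 ≤ q.es
  s1 : q.es ≤ 1 / 100000
  c0 : 0 ≤ q.c'
  c1 : q.c' ≤ 1
  rd : 2 < q.r₁ * Real.exp (-1)
  R1 : 1 ≤ q.R
  RR : R₀ ≤ q.R
  ε0 : 0 ≤ q.ε
  ε1 : q.ε ≤ 1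
  ε2 : n * q.ε ≤ 1 / 2
  ε3 : n * (cG n 12 * q.ε) ≤ 1 / 2
  l0 : 0 ≤ d.l₀ q
  met : ∀ z, r2 (gi d.s₁) z ≤ (1 + 1 / 100000) * HY.sq (z.1 - z.2)

/-- Levels below `l₀ + 16 R / 5` are in the ball. -/
theorem Bw_of' {σ R kap Gs : ℝ} (h0 : 0 < σ) (h1 : σ ≤ 1 / 5000) (hR : 0 < R) {x : V n}
    (h : levG n σ R kap Gs x < lam0 R kap Gs + 16 / 5 * R) : x ∈ Bw n σ R := by
  by_contra hc
  have hc' : 4 ≤ HY.sq (wR n σ R x) := not_lt.1 hc
  have h5 : th1 σ ≤ HY.sq (wR n σ R x) := by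
    have := th1_lt h0 h1
    linarith
  rw [levG_lit h0 h1 h5] at h
  have h6 : R / (2 * σ) * (HY.sq (wR n σ R x) - 1) < 16 / 5 * R := by linarith
  have h7 : R / (2 * σ) * 3 ≤ R / (2 * σ) * (HY.sq (wR n σ R x) - 1) :=
    mul_le_mul_of_nonneg_left (by linarith) (by positivity)
  have h8 : R / (2 * σ) * 3 = 3 * R * (1 / (2 * σ)) := by field_simp
  have h9 : 2 ≤ 1 / (2 * σ) := by
    rw [le_div_iff₀ (by positivity)]; linarith
  have h10 : 3 * R * 2 ≤ 3 * R * (1 / (2 * σ)) := by gcongr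
  linarith

namespace Dp

variable {R₀ : ℝ} {q : Cst} {d : Pk n} {z : VV n}

theorem R0 (h : Dp n R₀ q d) : 0 < q.R := one_pos.trans_le h.R1

theorem lit (h : Dp n R₀ q d) : d.l = levG n q.σ q.R d.kap d.Gs := h.pk.lev.lit

theorem UD_open (h : Dp n R₀ q d) : IsOpen (UD q d) := by
  have hl : Continuous d.l := h.pk.lev.sm.continuous
  have h1 : Continuous fun z : VV n => d.l z.1 := hl.comp continuous_fst
  have h2 : Continuous fun z : VV n => d.l z.2 := hl.comp continuous_snd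
  have h3 : Continuous fun z : VV n => HY.sq (z.1 - z.2) := by
    unfold HY.sq
    fun_prop
  exact (isOpen_lt h1 continuous_const).inter ((isOpen_lt h2 continuous_const).inter
    (isOpen_lt ((h1.add h2).add (continuous_const.mul (continuous_const.add h3).sqrt))
      continuous_const))

theorem x_mem (h : Dp n R₀ q d) (hz : z ∈ UD q d) : z.1 ∈ Bw n q.σ q.R := by
  refine Bw_of' (kap := d.kap) (Gs := d.Gs) h.σ0 h.σ1 h.R0 ?_
  have := hz.1
  rw [h.lit] at this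
  exact this

theorem y_mem (h : Dp n R₀ q d) (hz : z ∈ UD q d) : z.2 ∈ Bw n q.σ q.R := by
  refine Bw_of' (kap := d.kap) (Gs := d.Gs) h.σ0 h.σ1 h.R0 ?_
  have := hz.2.1
  rw [h.lit] at this
  exact this

theorem tr (h : Dp n R₀ q d) : TR 12 q.ε q.R d.s₁ := H657.W.Rg.t1 h.pk.rg

/-- `|x - y| ≤ 4 R / σ`. -/
theorem q_le (h : Dp n R₀ q d) (hz : z ∈ UD q d) : √(HY.sq (z.1 - z.2)) ≤ 4 * (q.R / q.σ) := by
  have h2 := en_sub_le_wR (n := n) h.σ0 h.R0 z.1 z.2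
  have hx : √(HY.sq (wR n q.σ q.R z.1)) ≤ 2 := by
    rw [Real.sqrt_le_left two_pos.le]
    have : HY.sq (wR n q.σ q.R z.1) < 4 := h.x_mem hz
    linarith
  have hy : √(HY.sq (wR n q.σ q.R z.2)) ≤ 2 := by
    rw [Real.sqrt_le_left two_pos.le]
    have : HY.sq (wR n q.σ q.R z.2) < 4 := h.y_mem hz
    linarith
  have hR := h.R0
  have hσ := h.σ0
  have h3 : √(HY.sq (z.1 - z.2)) ≤ q.R / q.σ * 4 :=
    h2.trans (mul_le_mul_of_nonneg_left (by linarith) (by positivity))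
  linarith

/-- `r ≤ (1 + 10⁻⁵) |x - y|`. -/
theorem r_le (h : Dp n R₀ q d) (z : VV n) :
    √(r2 (gi d.s₁) z) ≤ (1 + 1 / 100000) * √(HY.sq (z.1 - z.2)) := by
  have h0 : 0 ≤ HY.sq (z.1 - z.2) := by
    unfold HY.sq
    positivity
  rw [Real.sqrt_le_left (by positivity), mul_pow, Real.sq_sqrt h0]
  refine (h.met z).trans (mul_le_mul_of_nonneg_right (by norm_num) h0)

theorem r_le' (h : Dp n R₀ q d) (hz : z ∈ UD q d) : √(r2 (gi d.s₁) z) ≤ 6 / q.σ * q.R := by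
  have h1 := h.r_le z
  have h2 := h.q_le hz
  have h3 : 0 < q.R / q.σ := div_pos h.R0 h.σ0
  have h4 : 6 / q.σ * q.R = 6 * (q.R / q.σ) := by ring
  rw [h4]
  linarith

/-- The exponent. -/
theorem u_le (h : Dp n R₀ q d) (hz : z ∈ UD q d) : uf d.l z ≤ -(49 / 10000) * (q.R / q.σ) := by
  have h1 := hz.2.2
  have h2 := Real.sqrt_nonneg (q.R ^ 2 + HY.sq (z.1 - z.2))
  unfold uf
  linarith

/-- `u + (4/5) r + es r / 2 ≤ -(47/10000) R / σ`. -/
theorem f_le (h : Dp n R₀ q d) (hz : z ∈ UD q d) :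
    uf d.l z + 4 / 5 * √(r2 (gi d.s₁) z) + q.es * √(r2 (gi d.s₁) z) / 2 ≤
      -(47 / 10000) * (q.R / q.σ) := by
  have h1 := hz.2.2
  have h2 := h.r_le z
  have h3 := h.q_le hz
  have h4 : √(HY.sq (z.1 - z.2)) ≤ √(q.R ^ 2 + HY.sq (z.1 - z.2)) :=
    Real.sqrt_le_sqrt (by linarith [sq_nonneg q.R])
  have h5 : 0 < q.R / q.σ := div_pos h.R0 h.σ0
  have h6 := Real.sqrt_nonneg (HY.sq (z.1 - z.2))
  have h7 : q.es * √(r2 (gi d.s₁) z) ≤ 1 / 100000 * (5 * (q.R / q.σ)) :=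
    mul_le_mul h.s1 (by linarith) (Real.sqrt_nonneg _) (by norm_num)
  unfold uf
  linarith

end Dp

section fam

variable {α : Type*} {σ R₀ : ℝ} {q : α → Cst} {d : α → Pk n}

/-- Helper644's `Lg`. -/
theorem lgD (hσ : ∀ a, (q a).σ = σ) (h : ∀ a, Dp n R₀ (q a) (d a)) :
    Lg (fun a => Bw n σ (q a).R) (fun a => UD (q a) (d a)) (fun a => (q a).R)
      (fun a => (d a).l) (fun a => gi (d a).s₁) (6 / σ) 3 := by
  by_cases ha : Nonempty α
  · obtain ⟨a₀⟩ := ha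
    have e : (fun a => fderiv ℝ ((d a).l)) =
        fun a => fderiv ℝ (levG n σ (q a).R (d a).kap (d a).Gs) := by
      funext a
      rw [(h a).lit, hσ a]
    have hx : ∀ a, ∀ z ∈ UD (q a) (d a), z.1 ∈ Bw n σ (q a).R := fun a z hz => by
      have := (h a).x_mem hz
      rwa [hσ a] at this
    have hy : ∀ a, ∀ z ∈ UD (q a) (d a), z.2 ∈ Bw n σ (q a).R := fun a z hz => by
      have := (h a).y_mem hz
      rwa [hσ a] at this
    refine lg_of (K := 12) (e := fun a => (q a).ε) (S := fun a => (d a).s₁)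
      (fun a => (h a).tr) (by norm_num) (by norm_num) (fun a => Bw_open)
      (fun a => (h a).UD_open) (fun a => (h a).R1) (fun a => (h a).ε0) (fun a => (h a).ε1)
      (fun a => (h a).ε2) (fun a => (h a).ε3) hx hy
      (fun a z hz => mid_Bw (hx a z hz) (hy a z hz))
      (fun a => ?_) ?_ (fun a z hz => ?_)
    · exact (h a).pk.lev.sm.contDiffOn
    · rw [e]
      refine sf_lev (h a₀).n1 ?_ ?_ _ _ _ (fun a => (h a).R0) 3
      · rw [← hσ a₀]; exact (h a₀).σ0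
      · rw [← hσ a₀]; exact (h a₀).σ1
    · have := (h a).r_le' hz
      rwa [hσ a] at this
  · have := not_nonempty_iff.1 ha
    exact ⟨fun a => isEmptyElim a, fun a => isEmptyElim a, fun a => isEmptyElim a,
      fun a => isEmptyElim a, fun a => isEmptyElim a, fun a => isEmptyElim a,
      fun a => isEmptyElim a, ⟨fun a => isEmptyElim a, fun j _ => ⟨0, fun a => isEmptyElim a⟩⟩,
      fun i j => ⟨fun a => isEmptyElim a, fun j _ => ⟨0, fun a => isEmptyElim a⟩⟩,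
      fun a => isEmptyElim a, fun a => isEmptyElim a⟩

end fam

/-! ## The level of the midpoint -/

/-- Nearby points have nearly the same level. -/
theorem lev_near (hn : 1 ≤ n) {σ : ℝ} (h0 : 0 < σ) (h1 : σ ≤ 1 / 5000) : ∃ C, 0 < C ∧
    ∀ R kap Gs : ℝ, 1 ≤ R → ∀ x ∈ Bw n σ R, ∀ y, ‖y - x‖ ≤ 4 →
      levG n σ R kap Gs y ≤ levG n σ R kap Gs x + C := by
  obtain ⟨C, hC0, hC⟩ := levG_bound1 (n := n) hn h0 h1
  refine ⟨C * (6 + 3 / σ) * 4, by positivity, fun R kap Gs hR x hx y hy => ?_⟩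
  have hR0 : 0 < R := by linarith
  have hd : Differentiable ℝ (levG n σ R kap Gs) := (levG_smooth h0 h1).differentiable (by simp)
  have hb : ∀ w ∈ Metric.closedBall x 4, ‖fderiv ℝ (levG n σ R kap Gs) w‖ ≤ C * (6 + 3 / σ) := by
    intro w hw
    refine (hC R kap Gs hR0 w).trans (mul_le_mul_of_nonneg_left ?_ hC0.le)
    have h2 := Bw_norm h0 hR0 hx
    have h3 : ‖w‖ ≤ ‖x‖ + 4 := by
      have h4 : ‖w - x‖ ≤ 4 := by
        have := Metric.mem_closedBall.1 hw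
        rwa [dist_eq_norm] at this
      calc ‖w‖ = ‖x + (w - x)‖ := by abel_nf
        _ ≤ ‖x‖ + ‖w - x‖ := norm_add_le _ _
        _ ≤ _ := by linarith
    have h5 : ‖w‖ / R ≤ ‖x‖ / R + 4 := by
      calc ‖w‖ / R ≤ (‖x‖ + 4) / R := div_le_div_of_nonneg_right h3 hR0.le
        _ = ‖x‖ / R + 4 / R := add_div _ _ _
        _ ≤ _ := by
          have : 4 / R ≤ 4 := by rw [div_le_iff₀ hR0]; linarith
          linarith
    linarith
  have h2 := (convex_closedBall x 4).norm_image_sub_le_of_norm_fderiv_le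
    (fun w _ => hd w) hb (Metric.mem_closedBall_self (by norm_num))
    (Metric.mem_closedBall.2 (by rw [dist_eq_norm]; exact hy))
  have h3 := (le_abs_self _).trans h2
  have h4 : C * (6 + 3 / σ) * ‖y - x‖ ≤ C * (6 + 3 / σ) * 4 :=
    mul_le_mul_of_nonneg_left hy (by positivity)
  linarith

theorem norm_le_sq (v : V n) : ‖v‖ ≤ √(HY.sq v) := by
  rw [pi_norm_le_iff_of_nonneg (Real.sqrt_nonneg _)]
  intro i
  rw [Real.norm_eq_abs, ← Real.sqrt_sq_eq_abs]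
  refine Real.sqrt_le_sqrt ?_
  unfold HY.sq
  exact Finset.single_le_sum (f := fun i => v i ^ 2) (fun _ _ => sq_nonneg _) (Finset.mem_univ i)

end Vale.Agent.P088.R2.H673.INF
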