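import Vale.Agent.P088.R2.H673.INF.Rho

/-!
# P088, stage 3, zone INF: row RHO
-/

open Set Filter
open scoped ContDiff Topology Matrix

noncomputable section

namespace Vale.Agent.P088.R2.H673.INF

open Vale.Agent.P088.LR Vale.Agent.P088.HY Vale.Agent.P088.R2.H464.Cu
open Vale.Agent.P088.R2.H644.Sy Vale.Agent.P088.R2.H644.Ch Vale.Agent.P088.R2.H644.Ep
open Vale.Agent.P088.R2.H31.EP Vale.Agent.P088.R2.H475 Vale.Agent.P088.R2.H768.FarJ
open Vale.Agent.P088.R2.H961.GW Vale.Agent.P088.R2.H657.W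
open Vale.Agent.P088.R2.H269.INF
open Vale.Agent.P088.R2.H168.INF (W0 RowRho)

variable {n : ℕ}

/-! ## The weight in the deep region -/

namespace Dp

variable {R₀ : ℝ} {q : Cst} {d : Pk n} {z : VV n}

theorem r2_ge (h : Dp n R₀ q d) (z : VV n) : 1 / 4 * HY.sq (z.1 - z.2) ≤ r2 (gi d.s₁) z := by
  have hN := (h.tr.inv h.R0 h.ε1 h.ε2).nr (by norm_num) univ
  have := rq_bd hN h.ε3 (mem_univ (mid z))
  have e : dt (dif z) (dif z) = HY.sq (z.1 - z.2) := by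
    unfold dt HY.sq
    exact Finset.sum_congr rfl fun i _ => by rw [dif_apply]; simp only [Pi.sub_apply]; ring
  rw [e] at this
  unfold r2
  linarith [this.1]

theorem r2_nn (h : Dp n R₀ q d) (z : VV n) : 0 ≤ r2 (gi d.s₁) z := by
  refine le_trans ?_ (h.r2_ge z)
  unfold HY.sq
  positivity

/-- The correction vanishes. -/
theorem uu_eq0 (h : Dp n R₀ q d) {C : ℝ} (hC : C ≤ 49 / 20000 * (R₀ / q.σ))
    (hL : ∀ R kap Gs : ℝ, 1 ≤ R → ∀ x ∈ Bw n q.σ R, ∀ y, ‖y - x‖ ≤ 4 →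
      levG n q.σ R kap Gs y ≤ levG n q.σ R kap Gs x + C) (hz : z ∈ UD q d) :
    uu (d.F q) d.l (gi d.s₁) z = uf d.l z := by
  have key : d.χ (r2 (gi d.s₁) z) * d.μc q (d.l (mid z)) = 0 := by
    rcases le_or_gt 4 (r2 (gi d.s₁) z) with h4 | h4
    · rw [h.pk.χ0 _ h4, zero_mul]
    · have h5 : HY.sq (z.1 - z.2) ≤ 16 := by linarith [h.r2_ge z]
      have h6 : ‖z.1 - z.2‖ ≤ 4 := by
        refine (norm_le_sq _).trans ?_
        rw [Real.sqrt_le_left (by norm_num)]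
        linarith
      have ex : mid z - z.1 = (1 / 2 : ℝ) • (z.2 - z.1) := by
        funext i
        simp only [mid_apply, Pi.sub_apply, Pi.smul_apply, smul_eq_mul]
        ring
      have ey : mid z - z.2 = (1 / 2 : ℝ) • (z.1 - z.2) := by
        funext i
        simp only [mid_apply, Pi.sub_apply, Pi.smul_apply, smul_eq_mul]
        ring
      have nx : ‖mid z - z.1‖ ≤ 4 := by
        rw [ex, norm_smul, norm_sub_rev]
        norm_num
        linarith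
      have ny : ‖mid z - z.2‖ ≤ 4 := by
        rw [ey, norm_smul]
        norm_num
        linarith
      have lx := hL q.R d.kap d.Gs h.R1 z.1 (h.x_mem hz) (mid z) nx
      have ly := hL q.R d.kap d.Gs h.R1 z.2 (h.y_mem hz) (mid z) ny
      rw [← h.lit] at lx ly
      have hu := h.u_le hz
      unfold uf at hu
      have h7 : R₀ / q.σ ≤ q.R / q.σ := div_le_div_of_nonneg_right h.RR h.σ0.le
      have h8 : d.l (mid z) ≤ 0 := by linarith
      have h9 : 0 ≤ H313.Mu.sw q.Cs q.M₀ := by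
        unfold H313.Mu.sw
        have : 0 ≤ Real.log (q.Cs * q.M₀) := Real.log_nonneg (by nlinarith [h.M1, h.Cs1])
        linarith
      have h10 : d.μ (d.l (mid z)) = 0 := h.pk.ph.isμ.ze _ (h8.trans h9)
      unfold Pk.μc
      rw [h10, zero_mul, mul_zero]
  show d.l z.1 + d.l z.2 + 2 * (d.χ (r2 (gi d.s₁) z) * d.μc q (d.l (mid z))) = _
  rw [key, mul_zero, add_zero]
  rfl

/-- The weight near the diagonal. -/
theorem W_in (h : Dp n R₀ q d) (hu : uu (d.F q) d.l (gi d.s₁) z = uf d.l z)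
    (h4 : r2 (gi d.s₁) z < 4) :
    W0 q d z = d.Φ (uf d.l z) + Real.exp (uf d.l z) * prS q.e₁ (r2 (gi d.s₁) z) := by
  have h5 : r2 (gi d.s₁) z < (q.r₁ * Real.exp (-1)) ^ 2 := by
    have := h.rd
    nlinarith
  show (d.F q).Φ (uu (d.F q) d.l (gi d.s₁) z) + (d.F q).X (uu (d.F q) d.l (gi d.s₁) z) *
    st (d.F q) (uu (d.F q) d.l (gi d.s₁) z) (r2 (gi d.s₁) z) = _
  rw [hu, st_in' h.pk.ok h5]
  show d.Φ (uf d.l z) + 1 * (Real.exp (uf d.l z) * prS q.e₁ (r2 (gi d.s₁) z)) = _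
  rw [one_mul]

/-- The weight off the diagonal. -/
theorem W_out (h : Dp n R₀ q d) (hu : uu (d.F q) d.l (gi d.s₁) z = uf d.l z)
    (h0 : 0 < r2 (gi d.s₁) z) :
    W0 q d z = d.Φ (uf d.l z) + q.D 0 0 (jφ q d z, jr d z) := by
  show (d.F q).Φ (uu (d.F q) d.l (gi d.s₁) z) + (d.F q).X (uu (d.F q) d.l (gi d.s₁) z) *
    st (d.F q) (uu (d.F q) d.l (gi d.s₁) z) (r2 (gi d.s₁) z) = _
  rw [hu, st_out h.pk.ok h0]
  show d.Φ (uf d.l z) + 1 * q.D 0 0 (uf d.l z + Real.log (prS q.e₁ (r2 (gi d.s₁) z)),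
    √(r2 (gi d.s₁) z)) = _
  rw [one_mul]
  rfl

end Dp

/-! ## The near functions -/

/-- The derivatives of `e^u S(s - 1)`. -/
def Dn (e₁ : ℝ) (_ j : ℕ) (p : ℝ × ℝ) : ℝ :=
  Real.exp p.1 * iteratedDeriv j (prS e₁) (p.2 - 1)

theorem sI {f : ℝ → ℝ} (hf : ContDiff ℝ ∞ f) (j : ℕ) : ContDiff ℝ ∞ (iteratedDeriv j f) := by
  induction j with
  | zero => simpa [iteratedDeriv_zero] using hf
  | succ j ih =>
    rw [iteratedDeriv_succ]
    exact (contDiff_infty_iff_deriv.1 ih).2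

theorem pd_n {α : Type*} {e₁ : ℝ} (he : 0 < e₁) : Pd fun _ : α => Dn e₁ where
  sm _ _ j := by
    have h1 := sI (pp he).contDiff_Ph j
    exact ((Real.contDiff_exp.comp contDiff_fst).mul
      (h1.comp (contDiff_snd.sub contDiff_const))).contDiffOn
  hd _ i j z _ := by
    have h1 : HasFDerivAt (fun p : ℝ × ℝ => Real.exp p.1)
        (Real.exp z.1 • ContinuousLinearMap.fst ℝ ℝ ℝ) z :=
      (Real.hasDerivAt_exp z.1).comp_hasFDerivAt z hasFDerivAt_fst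
    have hd : HasDerivAt (iteratedDeriv j (prS e₁)) (iteratedDeriv (j + 1) (prS e₁) (z.2 - 1))
        (z.2 - 1) := by
      rw [iteratedDeriv_succ]
      exact ((sI (pp he).contDiff_Ph j).differentiable (by simp) _).hasDerivAt
    have h2 : HasFDerivAt (fun p : ℝ × ℝ => iteratedDeriv j (prS e₁) (p.2 - 1))
        (iteratedDeriv (j + 1) (prS e₁) (z.2 - 1) • ContinuousLinearMap.snd ℝ ℝ ℝ) z := by
      have h3 : HasFDerivAt (fun p : ℝ × ℝ => p.2 - 1) (ContinuousLinearMap.snd ℝ ℝ ℝ) z :=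
        (hasFDerivAt_snd (𝕜 := ℝ) (E := ℝ) (F := ℝ) (p := z)).sub_const (1 : ℝ)
      exact hd.comp_hasFDerivAt z h3
    refine (h1.mul h2).congr_fderiv ?_
    ext
    · simp [Dn, mul_comm]
    · simp [Dn]

/-! ## The family -/

/-- Another radius. -/
def wR' (q : Cst) (R : ℝ) : Cst :=
  ⟨q.KT, q.e₁, q.nm, q.cK, q.aC, q.c₀, q.ν₁, q.rT, q.ηc, q.CB, q.κ₁, q.σ, q.c', q.es, q.Cs,
    q.C₃, q.C₄, q.M₀, q.kv, q.ε, q.η, q.Ck, R⟩

/-- The family of all data with the same constants. -/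
def Fam (n : ℕ) (R₀ : ℝ) (q : Cst) : Type := {p : ℝ × Pk n // Dp n R₀ (wR' q p.1) p.2}

section main

variable {R₀ : ℝ} {q₁ : Cst}

/-- The constants and the data of a member. -/
def Fam.q (a : Fam n R₀ q₁) : Cst := wR' q₁ a.1.1
def Fam.d (a : Fam n R₀ q₁) : Pk n := a.1.2

theorem Fam.h (a : Fam n R₀ q₁) : Dp n R₀ a.q a.d := a.2

/-- The size. -/
def Fam.g (a : Fam n R₀ q₁) : ℝ := Real.exp (-(4 / 1000) * (a.q.R / a.q.σ))

theorem Fam.g0 (a : Fam n R₀ q₁) : 0 < a.g := Real.exp_pos _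

theorem Fam.exp_le (a : Fam n R₀ q₁) {t : ℝ} (ht : t ≤ -(47 / 10000) * (a.q.R / a.q.σ)) :
    Real.exp t ≤ a.g := by
  refine Real.exp_le_exp.2 ?_
  have := div_pos a.h.R0 a.h.σ0
  linarith

theorem gdF (U : Fam n R₀ q₁ → Set (VV n)) :
    Gd U (fun _ _ => 1) (fun (_ : ℕ) (a : Fam n R₀ q₁) (_ : VV n) => a.g) where
  ρ0 _ _ _ := one_pos
  γ0 _ a _ _ := a.g0.le
  gr _ := ⟨1, fun a z _ => by simp⟩

theorem lgF : Lg (fun a : Fam n R₀ q₁ => Bw n q₁.σ a.q.R) (fun a => UD a.q a.d)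
    (fun a => a.q.R) (fun a => a.d.l) (fun a => gi a.d.s₁) (6 / q₁.σ) 3 :=
  lgD (q := fun a : Fam n R₀ q₁ => a.q) (d := fun a => a.d) (fun _ => rfl) fun a => a.h

/-- The slope part. -/
theorem bPhi (j : ℕ) : ∃ C, ∀ (a : Fam n R₀ q₁), ∀ z ∈ UD a.q a.d,
    |iteratedDeriv (j + 1) (fun u => a.d.Φ u - a.q.M₀ * u) (uf a.d.l z)| ≤ C * a.g := by
  refine ⟨(1 + |q₁.ph.Ct (j - 1)|) * |q₁.ph.Cb|, fun a z hz => ?_⟩
  have hu := a.h.u_le hz
  have hp := div_pos a.h.R0 a.h.σ0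
  refine (phi_bd a.h.pk a.h.R0.le (u := uf a.d.l z) (by linarith) a.h.l0 j).trans ?_
  have e1 : a.q.ph = q₁.ph := rfl
  rw [e1]
  have h1 := a.exp_le (t := uf a.d.l z) (by linarith)
  have h2 : (1 + |q₁.ph.Ct (j - 1)|) * q₁.ph.Cb ≤ (1 + |q₁.ph.Ct (j - 1)|) * |q₁.ph.Cb| :=
    mul_le_mul_of_nonneg_left (le_abs_self _) (by positivity)
  exact mul_le_mul h2 h1 (Real.exp_pos _).le (by positivity)

/-- Far pairs. -/
theorem bFar (he : 0 < q₁.e₁) (i j : ℕ) (hij : 1 ≤ i + j) : ∃ C, ∀ (a : Fam n R₀ q₁), ∀ z ∈ UD a.q a.d,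
    1 < r2 (gi a.d.s₁) z → |a.q.D i j (jφ a.q a.d z, jr a.d z)| ≤ C * a.g := by
  obtain ⟨C, hC0, hC⟩ := prS_exp he
  refine ⟨2 * |slB i j| * C, fun a z hz h1 => ?_⟩
  have h0 : 0 < r2 (gi a.d.s₁) z := by linarith
  have hr : 0 < jr a.d z := Real.sqrt_pos.2 h0
  have hs : a.q.es ≤ 1 := a.h.s1.trans (by norm_num)
  refine (slow_bd a.h.pk hs (z := (jφ a.q a.d z, jr a.d z)) hr hij).trans ?_
  rw [mul_assoc (2 * |slB i j|)]
  refine mul_le_mul_of_nonneg_left ?_ (by positivity)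
  have hS : 0 < prS a.q.e₁ (r2 (gi a.d.s₁) z) := (pp a.h.e0).S_pos h0
  have e1 : Real.exp (jφ a.q a.d z + a.q.es * jr a.d z / 2) =
      prS a.q.e₁ (r2 (gi a.d.s₁) z) * Real.exp (uf a.d.l z + a.q.es * jr a.d z / 2) := by
    unfold jφ
    rw [← Real.exp_log hS, ← Real.exp_add, Real.exp_log hS]
    congr 1
    ring
  show Real.exp (jφ a.q a.d z + a.q.es * jr a.d z / 2) ≤ _
  rw [e1]
  have h2 := hC (jr a.d z) hr
  have e2 : jr a.d z ^ 2 = r2 (gi a.d.s₁) z := Real.sq_sqrt h0.le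
  rw [e2] at h2
  have h3 := a.h.f_le hz
  have h4 : Real.exp (4 / 5 * jr a.d z) * Real.exp (uf a.d.l z + a.q.es * jr a.d z / 2) ≤ a.g := by
    rw [← Real.exp_add]
    refine a.exp_le ?_
    have e3 : jr a.d z = √(r2 (gi a.d.s₁) z) := rfl
    rw [e3]
    linarith
  calc prS a.q.e₁ (r2 (gi a.d.s₁) z) * Real.exp (uf a.d.l z + a.q.es * jr a.d z / 2)
      ≤ (C * Real.exp (4 / 5 * jr a.d z)) * Real.exp (uf a.d.l z + a.q.es * jr a.d z / 2) :=
        mul_le_mul_of_nonneg_right h2 (Real.exp_pos _).le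
    _ = C * (Real.exp (4 / 5 * jr a.d z) * Real.exp (uf a.d.l z + a.q.es * jr a.d z / 2)) := by ring
    _ ≤ C * a.g := mul_le_mul_of_nonneg_left h4 hC0.le

/-- Near pairs. -/
theorem bNear (he : 0 < q₁.e₁) (i j : ℕ) : ∃ C, ∀ (a : Fam n R₀ q₁), ∀ z ∈ UD a.q a.d,
    r2 (gi a.d.s₁) z < 4 → |Dn q₁.e₁ i j (uf a.d.l z, r2 (gi a.d.s₁) z + 1)| ≤ C * a.g := by
  have hcont : Continuous (iteratedDeriv j (prS q₁.e₁)) := (sI (pp he).contDiff_Ph j).continuous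
  obtain ⟨C, hC⟩ := (isCompact_Icc (a := (0 : ℝ)) (b := 4)).exists_bound_of_continuousOn
    hcont.continuousOn
  refine ⟨C, fun a z hz h4 => ?_⟩
  have h0 := a.h.r2_nn z
  have h1 := hC _ ⟨h0, h4.le⟩
  have hu := a.h.u_le hz
  have hp := div_pos a.h.R0 a.h.σ0
  have h2 := a.exp_le (t := uf a.d.l z) (by linarith)
  unfold Dn
  rw [abs_mul, abs_of_pos (Real.exp_pos _)]
  simp only [add_sub_cancel_right]
  rw [mul_comm]
  exact mul_le_mul h1 h2 (Real.exp_pos _).le ((norm_nonneg _).trans h1)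

end main

end Vale.Agent.P088.R2.H673.INF
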