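import Vale.Agent.P088.R2.H673.INF.Rho2

/-!
# P088, stage 3, zone INF: row RHO, the end
-/

open Set Filter
open scoped ContDiff Topology Matrix

noncomputable section

namespace Vale.Agent.P088.R2.H673.INF

open Vale.Agent.P088.LR Vale.Agent.P088.HY Vale.Agent.P088.R2.H464.Cu
open Vale.Agent.P088.R2.H644.Sy Vale.Agent.P088.R2.H644.Ch Vale.Agent.P088.R2.H644.Ep
open Vale.Agent.P088.R2.H31.EP Vale.Agent.P088.R2.H475 Vale.Agent.P088.R2.H768.FarJ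
open Vale.Agent.P088.R2.H961.GW Vale.Agent.P088.R2.H657.W
open Vale.Agent.P088.R2.H269.INF
open Vale.Agent.P088.R2.H168.INF (W0 RowRho)

variable {n : ℕ} {R₀ : ℝ} {q₁ : Cst}

/-- The slope part. -/
def Fam.Φ (a : Fam n R₀ q₁) (u : ℝ) : ℝ := a.d.Φ u - a.q.M₀ * u

theorem Fam.sΦ (a : Fam n R₀ q₁) : ContDiff ℝ ∞ a.Φ :=
  a.h.pk.top.sm.sub (contDiff_const.mul contDiff_id)

/-- The two regions. -/
def Fam.U1 (a : Fam n R₀ q₁) : Set (VV n) := UD a.q a.d ∩ {z | r2 (gi a.d.s₁) z < 4}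
def Fam.U2 (a : Fam n R₀ q₁) : Set (VV n) := UD a.q a.d ∩ {z | 1 < r2 (gi a.d.s₁) z}

theorem Fam.o1 (a : Fam n R₀ q₁) : IsOpen a.U1 :=
  (lgF.sr a).continuousOn.isOpen_inter_preimage a.h.UD_open isOpen_Iio

theorem Fam.o2 (a : Fam n R₀ q₁) : IsOpen a.U2 :=
  (lgF.sr a).continuousOn.isOpen_inter_preimage a.h.UD_open isOpen_Ioi

theorem lg1 : Lg (fun a : Fam n R₀ q₁ => Bw n q₁.σ a.q.R) Fam.U1
    (fun a => a.q.R) (fun a => a.d.l) (fun a => gi a.d.s₁) (6 / q₁.σ) 3 :=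
  lgF.sub Fam.o1 fun _ _ hz => hz.1

theorem lg2 : Lg (fun a : Fam n R₀ q₁ => Bw n q₁.σ a.q.R) Fam.U2
    (fun a => a.q.R) (fun a => a.d.l) (fun a => gi a.d.s₁) (6 / q₁.σ) 3 :=
  lgF.sub Fam.o2 fun _ _ hz => hz.1

/-- Near pairs. -/
theorem sg1 (he : 0 < q₁.e₁) : Sg (Fam.U1 (n := n) (R₀ := R₀) (q₁ := q₁)) (fun _ a _ => a.g) 3
    fun a => fderiv ℝ fun z => a.Φ (uf a.d.l z) +
      Dn q₁.e₁ 0 0 (uf a.d.l z, r2 (gi a.d.s₁) z + 1) := by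
  have hl := lg1 (n := n) (R₀ := R₀) (q₁ := q₁)
  have du : Sf (Fam.U1 (n := n) (R₀ := R₀) (q₁ := q₁)) (fun _ _ => 1) (fun _ _ => 1) 3
      (fun a => fderiv ℝ (uf a.d.l)) :=
    hl.s_uf.mono_ρ (fun a _ _ => a.h.R0) (fun _ _ _ => one_pos) (fun _ _ _ => zero_le_one)
      (A := 1) fun a _ _ => by
        have := a.h.R1
        linarith
  have dr : Sf (Fam.U1 (n := n) (R₀ := R₀) (q₁ := q₁)) (fun _ _ => 1) (fun _ _ => 1) 3
      (fun a => fderiv ℝ fun z => r2 (gi a.d.s₁) z + 1) := by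
    have h1 := ((hl.s_r2n (c := 4) fun a z hz => hz.2.le).fd hl.oU).wcongr
      (g₁ := fun _ _ => 1) fun a z _ => by simp
    refine h1.congr hl.oU fun a z _ => ?_
    exact fderiv_add_const (f := r2 (gi a.d.s₁)) 1
  refine sg_W (ρ := fun _ _ => 1) (pd_n he) hl.oU (gdF _) hl.sm_uf hl.sm_uf
    (fun a => (hl.sr a).add contDiffOn_const) (fun a => a.sΦ)
    (fun a z _ => by linarith [a.h.r2_nn z]) du du dr (fun j _ => ?_) (fun i j _ _ => ?_)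
  · obtain ⟨C, hC⟩ := bPhi (n := n) (R₀ := R₀) (q₁ := q₁) j
    exact ⟨C, fun a z hz => hC a z hz.1⟩
  · obtain ⟨C, hC⟩ := bNear (n := n) (R₀ := R₀) he i j
    exact ⟨C, fun a z hz => hC a z hz.1 hz.2⟩

/-- Far pairs. -/
theorem sg2 (he : 0 < q₁.e₁) : Sg (Fam.U2 (n := n) (R₀ := R₀) (q₁ := q₁)) (fun _ a _ => a.g) 3
    fun a => fderiv ℝ fun z => a.Φ (uf a.d.l z) + a.q.D 0 0 (jφ a.q a.d z, jr a.d z) := by
  have hl := lg2 (n := n) (R₀ := R₀) (q₁ := q₁)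
  have F : H768.FarJ.Fj (fun a : Fam n R₀ q₁ => a.q) (fun a => a.d) q₁.e₁ (6 / q₁.σ) 1
      (fun a => Bw n q₁.σ a.q.R) Fam.U2 0 :=
    { e0 := he
      e := fun _ => rfl
      c0 := one_pos
      sl := fun a => a.h.pk.sl
      M0 := fun a => zero_le_one.trans a.h.M1
      s0 := fun a => a.h.s0
      s1 := fun a => a.h.s1.trans (by norm_num)
      c1 := fun a => a.h.c1
      lg := hl
      h0 := fun a z hz => hz.2 }
  obtain ⟨p1, p2, p3⟩ := F.ph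
  have r0 : ∀ a : Fam n R₀ q₁, ∀ z ∈ a.U2, 0 < jr a.d z := fun a z hz => F.r0 hz
  have r1 : ∀ a : Fam n R₀ q₁, ∀ z ∈ a.U2, (1 : ℝ) ≤ 1 * jr a.d z := fun a z hz => by
    have := F.r_ge hz
    rw [Real.sqrt_one] at this
    linarith
  have du : Sf (Fam.U2 (n := n) (R₀ := R₀) (q₁ := q₁)) (fun _ _ => 1) (fun _ _ => 1) 3
      (fun a => fderiv ℝ (uf a.d.l)) :=
    hl.s_uf.mono_ρ (fun a _ _ => a.h.R0) (fun _ _ _ => one_pos) (fun _ _ _ => zero_le_one)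
      (A := 1) fun a _ _ => by
        have := a.h.R1
        linarith
  have dφ : Sf (Fam.U2 (n := n) (R₀ := R₀) (q₁ := q₁)) (fun _ _ => 1) (fun _ _ => 1) 3
      (fun a => fderiv ℝ (jφ a.q a.d)) :=
    p2.mono_ρ r0 (fun _ _ _ => one_pos) (fun _ _ _ => zero_le_one) r1
  have dr : Sf (Fam.U2 (n := n) (R₀ := R₀) (q₁ := q₁)) (fun _ _ => 1) (fun _ _ => 1) 3
      (fun a => fderiv ℝ (jr a.d)) := by
    have h1 := (p3.fd hl.oU).wcongr (g₁ := fun _ _ => 1) fun a z hz => by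
      rw [mul_inv_cancel₀ (r0 a z hz).ne']
    exact h1.mono_ρ r0 (fun _ _ _ => one_pos) (fun _ _ _ => zero_le_one) r1
  have P : Pd fun a : Fam n R₀ q₁ => a.q.D :=
    { sm := fun a i j => a.h.pk.sl.sm i j
      hd := fun a i j z hz => a.h.pk.sl.hd i j z hz }
  refine sg_W (ρ := fun _ _ => 1) P hl.oU (gdF _) hl.sm_uf p1 p3.sm (fun a => a.sΦ) r0 du dφ dr
    (fun j _ => ?_) (fun i j h1 _ => ?_)
  · obtain ⟨C, hC⟩ := bPhi (n := n) (R₀ := R₀) (q₁ := q₁) j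
    exact ⟨C, fun a z hz => hC a z hz.1⟩
  · obtain ⟨C, hC⟩ := bFar (n := n) (R₀ := R₀) he i j h1
    exact ⟨C, fun a z hz => hC a z hz.1 hz.2⟩

/-- One constant for the four derivatives. -/
theorem sg_four {α E F : Type*} [NormedAddCommGroup E] [NormedSpace ℝ E] [NormedAddCommGroup F]
    [NormedSpace ℝ F] {U : α → Set E} {g : α → ℝ} {f : α → E → F} (g0 : ∀ a, 0 ≤ g a)
    (h : Sg U (fun _ a _ => g a) 3 fun a => fderiv ℝ (f a)) : ∃ C, 0 ≤ C ∧ ∀ a, ∀ z ∈ U a, ∀ j,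
      1 ≤ j → j ≤ 4 → ‖iteratedFDeriv ℝ j (f a) z‖ ≤ C * g a := by
  have h1 : ∀ j, ∃ C, j ≤ 3 → ∀ a, ∀ z ∈ U a,
      ‖iteratedFDeriv ℝ j (fderiv ℝ (f a)) z‖ ≤ C * g a := fun j => by
    by_cases hj : j ≤ 3
    · obtain ⟨C, hC⟩ := h.bd j hj
      exact ⟨C, fun _ => hC⟩
    · exact ⟨0, fun h => absurd h hj⟩
  choose C hC using h1
  refine ⟨∑ j ∈ Finset.range 4, |C j|, by positivity, fun a z hz j h1 h4 => ?_⟩
  obtain ⟨i, rfl⟩ : ∃ i, j = i + 1 := ⟨j - 1, by omega⟩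
  rw [← norm_iteratedFDeriv_fderiv]
  refine (hC i (by omega) a z hz).trans (mul_le_mul_of_nonneg_right ?_ (g0 a))
  exact (le_abs_self _).trans (Finset.single_le_sum (f := fun j => |C j|)
    (fun _ _ => abs_nonneg _) (Finset.mem_range.2 (by omega)))

/-- **The derivatives in the deep region**, for fixed constants before `R`. -/
theorem core (n : ℕ) (q₁ : Cst) (hn : 1 ≤ n) (h0 : 0 < q₁.σ) (h1 : q₁.σ ≤ 1 / 5000)
    (he : 0 < q₁.e₁) : ∃ C R₀ : ℝ, 0 ≤ C ∧ ∀ R (d : Pk n), Dp n R₀ (wR' q₁ R) d →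
      ∀ z ∈ UD (wR' q₁ R) d, ∀ j, 1 ≤ j → j ≤ 4 →
      ‖iteratedFDeriv ℝ j (fun z => W0 (wR' q₁ R) d z - q₁.M₀ * (d.l z.1 + d.l z.2)) z‖ ≤
        C * Real.exp (-(4 / 1000) * (R / q₁.σ)) := by
  obtain ⟨Cl, hCl0, hCl⟩ := lev_near hn h0 h1
  set R₀ : ℝ := 20000 / 49 * q₁.σ * Cl with hR₀
  have hRC : Cl ≤ 49 / 20000 * (R₀ / q₁.σ) := by
    rw [hR₀]
    have := h0.ne'
    refine le_of_eq ?_
    field_simp
  obtain ⟨C₁, hC₁0, hC₁⟩ := sg_four (fun a => a.g0.le) (sg1 (n := n) (R₀ := R₀) he)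
  obtain ⟨C₂, hC₂0, hC₂⟩ := sg_four (fun a => a.g0.le) (sg2 (n := n) (R₀ := R₀) he)
  refine ⟨C₁ + C₂, R₀, by positivity, fun R d h z hz j hj1 hj4 => ?_⟩
  let a : Fam n R₀ q₁ := ⟨(R, d), h⟩
  have hu : ∀ w ∈ UD (wR' q₁ R) d, uu (d.F (wR' q₁ R)) d.l (gi d.s₁) w = uf d.l w :=
    fun w hw => h.uu_eq0 hRC hCl hw
  have hg : 0 ≤ Real.exp (-(4 / 1000) * (R / q₁.σ)) := (Real.exp_pos _).le
  rcases lt_or_ge (r2 (gi d.s₁) z) 4 with h4 | h4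
  · have hz1 : z ∈ a.U1 := ⟨hz, h4⟩
    have e : (fun z => W0 (wR' q₁ R) d z - q₁.M₀ * (d.l z.1 + d.l z.2)) =ᶠ[𝓝 z]
        fun z => a.Φ (uf a.d.l z) + Dn q₁.e₁ 0 0 (uf a.d.l z, r2 (gi a.d.s₁) z + 1) := by
      filter_upwards [a.o1.mem_nhds hz1] with w hw
      rw [h.W_in (hu w hw.1) hw.2]
      show d.Φ (uf d.l w) + Real.exp (uf d.l w) * prS q₁.e₁ (r2 (gi d.s₁) w) -
        q₁.M₀ * (uf d.l w) = (d.Φ (uf d.l w) - q₁.M₀ * uf d.l w) +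
        Real.exp (uf d.l w) * iteratedDeriv 0 (prS q₁.e₁) (r2 (gi d.s₁) w + 1 - 1)
      rw [iteratedDeriv_zero, add_sub_cancel_right]
      ring
    rw [(e.iteratedFDeriv ℝ j).eq_of_nhds]
    refine (hC₁ a z hz1 j hj1 hj4).trans ?_
    exact mul_le_mul_of_nonneg_right (by linarith) hg
  · have hz2 : z ∈ a.U2 := ⟨hz, lt_of_lt_of_le (by norm_num) h4⟩
    have e : (fun z => W0 (wR' q₁ R) d z - q₁.M₀ * (d.l z.1 + d.l z.2)) =ᶠ[𝓝 z]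
        fun z => a.Φ (uf a.d.l z) + a.q.D 0 0 (jφ a.q a.d z, jr a.d z) := by
      filter_upwards [a.o2.mem_nhds hz2] with w hw
      rw [h.W_out (hu w hw.1) (zero_lt_one.trans hw.2)]
      show d.Φ (uf d.l w) + (wR' q₁ R).D 0 0 (jφ (wR' q₁ R) d w, jr d w) -
        q₁.M₀ * (uf d.l w) = (d.Φ (uf d.l w) - q₁.M₀ * uf d.l w) +
        (wR' q₁ R).D 0 0 (jφ (wR' q₁ R) d w, jr d w)
      ring
    rw [(e.iteratedFDeriv ℝ j).eq_of_nhds]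
    refine (hC₂ a z hz2 j hj1 hj4).trans ?_
    exact mul_le_mul_of_nonneg_right (by linarith) hg

end Vale.Agent.P088.R2.H673.INF
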